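import Vale.Agent.P054.BdN.N5
import Vale.Agent.P054.T2.H686.Pairs

set_option autoImplicit false
set_option linter.all false

/-!
# P054 / T2, leaf [S1]: pairs on rich lines (Szemerédi–Trotter) and edges between good pairs
-/

namespace Vale.Agent.P054.T2.H269

open Finset Vale.Agent.P054.T2.H686

variable {n : ℕ}

/-- `z` lies on the line through `x` and `y` -/
def onLine (x y z : E n) : Prop := ∃ a : ℝ, z = x + a • (y - x)

theorem onLine_left (x y : E n) : onLine x y x := ⟨0, by simp⟩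

theorem onLine_right (x y : E n) : onLine x y y := ⟨1, by simp⟩

theorem onLine_comm {x y z : E n} (h : onLine x y z) : onLine y x z := by
  obtain ⟨a, rfl⟩ := h
  refine ⟨1 - a, ?_⟩
  module

theorem onLine_comm_iff {x y z : E n} : onLine x y z ↔ onLine y x z :=
  ⟨onLine_comm, onLine_comm⟩

/-- number of points of `P` on the line through `x` and `y` -/
noncomputable def lineCard (P : Finset (E n)) (x y : E n) : ℕ := by
  classical
  exact (P.filter fun z => onLine x y z).card

theorem lineCard_eq (P : Finset (E n)) (x y : E n) [DecidablePred fun z => onLine x y z] :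
    lineCard P x y = (P.filter fun z => onLine x y z).card := by
  unfold lineCard
  congr 1
  ext z
  simp

theorem lineCard_comm (P : Finset (E n)) (x y : E n) : lineCard P x y = lineCard P y x := by
  classical
  rw [lineCard_eq, lineCard_eq]
  congr 1
  ext z
  simp [onLine_comm_iff (x := x)]

/-- (S1b) a line contains at most `2 t + 1` points, `t` = number of distances -/
theorem lineCard_le (P : Finset (E n)) {x y : E n} (hx : x ∈ P) (hxy : x ≠ y) :
    lineCard P x y ≤ 2 * (dists P).card + 1 := by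
  classical
  rw [lineCard_eq]
  have hn : 0 < ‖y - x‖ := norm_pos_iff.2 (sub_ne_zero.2 hxy.symm)
  -- the points different from `x`
  have h1 : (P.filter fun z => onLine x y z).card ≤
      ((P.filter fun z => onLine x y z).erase x).card + 1 := by
    have := Finset.pred_card_le_card_erase (s := P.filter fun z => onLine x y z) (a := x)
    omega
  refine h1.trans (Nat.add_le_add_right ?_ 1)
  have h2 : ((P.filter fun z => onLine x y z).erase x).card ≤
      2 * ((dists P)).card := by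
    refine Finset.card_le_mul_card_image_of_maps_to (f := fun z => dist x z) ?_ 2 ?_
    · intro z hz
      rw [mem_erase, mem_filter] at hz
      have : dist x z ∈ (dists P : Set ℝ) := by
        rw [coe_dists]
        exact ⟨x, hx, z, hz.2.1, fun h => hz.1 h.symm, rfl⟩
      exact this
    · intro r hr
      have h3 : (((P.filter fun z => onLine x y z).erase x).filter fun z => dist x z = r) ⊆
          {x + (r / ‖y - x‖) • (y - x), x + (-(r / ‖y - x‖)) • (y - x)} := by
        intro z hz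
        rw [mem_filter, mem_erase, mem_filter] at hz
        obtain ⟨⟨_, _, a, rfl⟩, h5⟩ := hz
        have h6 : |a| * ‖y - x‖ = r := by
          rw [← h5, dist_eq_norm]
          rw [show x - (x + a • (y - x)) = -(a • (y - x)) by abel, norm_neg, norm_smul,
            Real.norm_eq_abs]
        have h7 : |a| = r / ‖y - x‖ := by
          rw [← h6]; field_simp
        rw [mem_insert, mem_singleton]
        rcases abs_choice a with h8 | h8
        · left; rw [← h7, h8]
        · right; rw [← h7, h8, neg_neg]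
      exact (card_le_card h3).trans (card_insert_le _ _ |>.trans (by simp))
  exact h2

/-- the vector `(1, x)` -/
def lift (x : E n) : ℝ × E n := (1, x)

theorem lift_ne (x : E n) : lift x ≠ 0 := by
  intro h
  have := congrArg Prod.fst h
  simp [lift] at this

theorem lift_mem_span_singleton {x z : E n} (h : lift z ∈ Submodule.span ℝ {lift x}) : z = x := by
  rw [Submodule.mem_span_singleton] at h
  obtain ⟨c, hc⟩ := h
  have h1 : c * 1 = 1 := congrArg Prod.fst hc
  have h2 : c • x = z := congrArg Prod.snd hc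
  have : c = 1 := by linarith
  rw [← h2, this, one_smul]

theorem lift_mem_span_pair {x y z : E n} :
    lift z ∈ Submodule.span ℝ {lift x, lift y} ↔ onLine x y z := by
  rw [Submodule.mem_span_pair]
  constructor
  · rintro ⟨a, b, h⟩
    have h1 : a * 1 + b * 1 = 1 := congrArg Prod.fst h
    have h2 : a • x + b • y = z := congrArg Prod.snd h
    refine ⟨b, ?_⟩
    have : a = 1 - b := by linarith
    rw [← h2, this]
    module
  · rintro ⟨a, rfl⟩
    refine ⟨1 - a, a, ?_⟩
    refine Prod.ext ?_ ?_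
    · simp [lift]
    · simp only [lift, Prod.snd_add, Prod.smul_snd]
      module

theorem finrank_span_pair {x y : E n} (hxy : x ≠ y) :
    Module.finrank ℝ (Submodule.span ℝ ({lift x, lift y} : Set (ℝ × E n))) = 2 := by
  have hli : LinearIndependent ℝ ![lift x, lift y] := by
    rw [LinearIndependent.pair_iff]
    intro a b h
    have h1 : a * 1 + b * 1 = 0 := congrArg Prod.fst h
    have h2 : a • x + b • y = 0 := congrArg Prod.snd h
    have h3 : a = -b := by linarith
    rw [h3] at h2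
    have h4 : b • (y - x) = 0 := by rw [← h2]; module
    rcases smul_eq_zero.1 h4 with h5 | h5
    · exact ⟨by rw [h3, h5, neg_zero], h5⟩
    · exact absurd (sub_eq_zero.1 h5).symm hxy
  have := finrank_span_eq_card hli
  rw [Matrix.range_cons, Matrix.range_cons, Matrix.range_empty, Set.union_empty,
    Set.singleton_union] at this
  simpa using this

open scoped Classical in
/-- the lines (as planes in `ℝ × E n`) with at least `κ` points -/
noncomputable def Zk (P : Finset (E n)) (κ : ℕ) : Finset (Submodule ℝ (ℝ × E n)) :=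
  (P.offDiag.filter fun p => κ ≤ lineCard P p.1 p.2).image
    fun p => Submodule.span ℝ {lift p.1, lift p.2}

theorem card_Zk_le (P : Finset (E n)) (κ : ℕ) (Λ : ℝ)
    (hΛ : 12 * Real.log (P.card + 1) + 1 ≤ Λ) (hκ : 64 * Λ ≤ κ) :
    ((Zk P κ).card : ℝ) ≤ 2 ^ 12 * Λ ^ 2 * ((P.card : ℝ) ^ 2 / κ ^ 3) + 2 * (P.card / κ) := by
  classical
  have h := Vale.Agent.P054.linearST P (lift (n := n)) 1 κ Λ (fun i _ => lift_ne i) (by
    intro i hi
    have h1 : (P.filter fun j => lift j ∈ Submodule.span ℝ {lift i}) ⊆ {i} := by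
      intro j hj
      rw [mem_filter] at hj
      rw [mem_singleton]
      exact lift_mem_span_singleton hj.2
    have h2 := card_le_card h1
    rw [card_singleton] at h2
    unfold Vale.Agent.P054.mass
    exact_mod_cast h2) one_pos (Zk P κ) (by
    intro A hA
    simp only [Zk, mem_image, mem_filter, mem_offDiag] at hA
    obtain ⟨p, ⟨⟨hp1, hp2, hne⟩, hk⟩, rfl⟩ := hA
    refine ⟨finrank_span_pair hne, ?_⟩
    unfold Vale.Agent.P054.mass
    rw [lineCard_eq] at hk
    have h3 : (P.filter fun z => onLine p.1 p.2 z) =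
        P.filter fun i => lift i ∈ Submodule.span ℝ ({lift p.1, lift p.2} : Set (ℝ × E n)) := by
      ext z
      simp [lift_mem_span_pair]
    rw [h3] at hk
    exact_mod_cast hk) hΛ (by simpa using hκ)
  simpa using h

open scoped Classical in
/-- pairs with `κ ≤ lineCard < 2 κ` -/
theorem card_pairs_dyadic (P : Finset (E n)) (κ : ℕ) :
    (P.offDiag.filter fun p => κ ≤ lineCard P p.1 p.2 ∧ lineCard P p.1 p.2 < 2 * κ).card ≤
      (2 * κ) ^ 2 * (Zk P κ).card := by
  refine Finset.card_le_mul_card_image_of_maps_to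
    (f := fun p => Submodule.span ℝ ({lift p.1, lift p.2} : Set (ℝ × E n))) ?_ _ ?_
  · intro p hp
    rw [mem_filter] at hp
    exact mem_image_of_mem _ (mem_filter.2 ⟨hp.1, hp.2.1⟩)
  · intro A hA
    rcases ((P.offDiag.filter fun p => κ ≤ lineCard P p.1 p.2 ∧
        lineCard P p.1 p.2 < 2 * κ).filter fun p =>
        Submodule.span ℝ ({lift p.1, lift p.2} : Set (ℝ × E n)) = A).eq_empty_or_nonempty
      with h0 | ⟨p, hp⟩
    · rw [h0]; simp
    rw [mem_filter, mem_filter] at hp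
    obtain ⟨⟨hp1, hp2, hp3⟩, hpA⟩ := hp
    have h1 : ((P.offDiag.filter fun p => κ ≤ lineCard P p.1 p.2 ∧
        lineCard P p.1 p.2 < 2 * κ).filter fun p =>
        Submodule.span ℝ ({lift p.1, lift p.2} : Set (ℝ × E n)) = A) ⊆
        (P.filter fun z => onLine p.1 p.2 z) ×ˢ (P.filter fun z => onLine p.1 p.2 z) := by
      intro q hq
      rw [mem_filter, mem_filter, mem_offDiag] at hq
      obtain ⟨⟨⟨hq1, hq2, hq3⟩, _, _⟩, hqA⟩ := hq
      rw [mem_product, mem_filter, mem_filter]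
      refine ⟨⟨hq1, ?_⟩, hq2, ?_⟩
      · rw [← lift_mem_span_pair, hpA, ← hqA]
        exact Submodule.subset_span (by simp)
      · rw [← lift_mem_span_pair, hpA, ← hqA]
        exact Submodule.subset_span (by simp)
    refine (card_le_card h1).trans ?_
    rw [card_product, ← lineCard_eq, sq]
    exact Nat.mul_le_mul hp3.le hp3.le

/-- (S1a) dyadic sum: pairs on lines with at least `C` points, all lines having `< C 2^J` points -/
theorem card_rich_le (P : Finset (E n)) (Λ : ℝ) (hΛ : 12 * Real.log (P.card + 1) + 1 ≤ Λ)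
    (C : ℕ) (hC : 64 * Λ ≤ C) (J : ℕ) :
    ((P.offDiag.filter fun p => C ≤ lineCard P p.1 p.2 ∧
        lineCard P p.1 p.2 < C * 2 ^ J).card : ℝ) ≤
      2 ^ 14 * Λ ^ 2 * ((P.card : ℝ) ^ 2 / C) * (2 - 2 / 2 ^ J) +
        8 * P.card * (C * 2 ^ J) := by
  classical
  have hlog : 0 ≤ Real.log ((P.card : ℝ) + 1) := Real.log_nonneg (by
    have : (0:ℝ) ≤ P.card := by positivity
    linarith)
  have hΛ1 : 1 ≤ Λ := by linarith
  have hC0 : (0:ℝ) < C := by linarith
  induction J with
  | zero =>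
    have h0 : (P.offDiag.filter fun p => C ≤ lineCard P p.1 p.2 ∧
        lineCard P p.1 p.2 < C * 2 ^ 0) = ∅ := by
      ext p
      simp only [mem_filter, pow_zero, mul_one, notMem_empty, iff_false, not_and]
      intro _ h1 h2
      omega
    rw [h0]
    norm_num
    positivity
  | succ J ih =>
    have hsub : (P.offDiag.filter fun p => C ≤ lineCard P p.1 p.2 ∧
        lineCard P p.1 p.2 < C * 2 ^ (J + 1)) ⊆
        (P.offDiag.filter fun p => C ≤ lineCard P p.1 p.2 ∧
          lineCard P p.1 p.2 < C * 2 ^ J) ∪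
        (P.offDiag.filter fun p => C * 2 ^ J ≤ lineCard P p.1 p.2 ∧
          lineCard P p.1 p.2 < 2 * (C * 2 ^ J)) := by
      intro p hp
      rw [mem_filter] at hp
      rw [mem_union, mem_filter, mem_filter]
      rcases lt_or_ge (lineCard P p.1 p.2) (C * 2 ^ J) with h | h
      · exact Or.inl ⟨hp.1, hp.2.1, h⟩
      · refine Or.inr ⟨hp.1, h, ?_⟩
        calc lineCard P p.1 p.2 < C * 2 ^ (J + 1) := hp.2.2
          _ = 2 * (C * 2 ^ J) := by rw [pow_succ]; ring
    have h1 : ((P.offDiag.filter fun p => C ≤ lineCard P p.1 p.2 ∧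
        lineCard P p.1 p.2 < C * 2 ^ (J + 1)).card : ℝ) ≤
        ((P.offDiag.filter fun p => C ≤ lineCard P p.1 p.2 ∧
          lineCard P p.1 p.2 < C * 2 ^ J).card : ℝ) +
        ((P.offDiag.filter fun p => C * 2 ^ J ≤ lineCard P p.1 p.2 ∧
          lineCard P p.1 p.2 < 2 * (C * 2 ^ J)).card : ℝ) := by
      exact_mod_cast (card_le_card hsub).trans (card_union_le _ _)
    have h2 : ((P.offDiag.filter fun p => C * 2 ^ J ≤ lineCard P p.1 p.2 ∧
          lineCard P p.1 p.2 < 2 * (C * 2 ^ J)).card : ℝ) ≤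
        (2 * ((C * 2 ^ J : ℕ) : ℝ)) ^ 2 * ((Zk P (C * 2 ^ J)).card : ℝ) := by
      exact_mod_cast card_pairs_dyadic P (C * 2 ^ J)
    have hκ : (64 * Λ : ℝ) ≤ ((C * 2 ^ J : ℕ) : ℝ) := by
      push_cast
      have : (1:ℝ) ≤ 2 ^ J := one_le_pow₀ (by norm_num)
      nlinarith
    have h3 := card_Zk_le P (C * 2 ^ J) Λ hΛ hκ
    set κ : ℝ := ((C * 2 ^ J : ℕ) : ℝ) with hκd
    have hκe : κ = C * 2 ^ J := by rw [hκd]; push_cast; ring
    have hκ0 : 0 < κ := by linarith
    have h4 : (2 * κ) ^ 2 * ((Zk P (C * 2 ^ J)).card : ℝ) ≤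
        2 ^ 14 * Λ ^ 2 * ((P.card : ℝ) ^ 2 / κ) + 8 * P.card * κ := by
      calc (2 * κ) ^ 2 * ((Zk P (C * 2 ^ J)).card : ℝ)
          ≤ (2 * κ) ^ 2 * (2 ^ 12 * Λ ^ 2 * ((P.card : ℝ) ^ 2 / κ ^ 3) + 2 * (P.card / κ)) :=
            mul_le_mul_of_nonneg_left h3 (by positivity)
        _ = 2 ^ 14 * Λ ^ 2 * ((P.card : ℝ) ^ 2 / κ) + 8 * P.card * κ := by
            field_simp
            ring
    have h5 : 2 ^ 14 * Λ ^ 2 * ((P.card : ℝ) ^ 2 / κ) =
        2 ^ 14 * Λ ^ 2 * ((P.card : ℝ) ^ 2 / C) * (1 / 2 ^ J) := by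
      rw [hκe]
      field_simp
    have h6 : (2:ℝ) - 2 / 2 ^ (J + 1) = (2 - 2 / 2 ^ J) + 1 / 2 ^ J := by
      rw [pow_succ]
      field_simp
      ring
    rw [h6, mul_add]
    have h7 : 8 * (P.card : ℝ) * (C * 2 ^ (J + 1)) =
        8 * P.card * (C * 2 ^ J) + 8 * P.card * κ := by
      rw [hκe, pow_succ]; ring
    rw [h7]
    have h8 := h1.trans (add_le_add ih (h2.trans h4))
    rw [h5] at h8
    linarith

open scoped Classical in
/-- the pairs of distinct points on a line with at most `C` points -/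
noncomputable def good (P : Finset (E n)) (C : ℕ) : Finset (E n × E n) :=
  P.offDiag.filter fun p => lineCard P p.1 p.2 ≤ C

theorem card_bad_le (P : Finset (E n)) (Λ : ℝ) (hΛ : 12 * Real.log (P.card + 1) + 1 ≤ Λ)
    (C : ℕ) (hC : 64 * Λ ≤ C) :
    ((P.offDiag \ good P C).card : ℝ) ≤
      2 ^ 15 * Λ ^ 2 * ((P.card : ℝ) ^ 2 / C) + 32 * P.card * (C + 2 * (dists P).card + 1) := by
  classical
  have hlog : 0 ≤ Real.log ((P.card : ℝ) + 1) := Real.log_nonneg (by
    have : (0:ℝ) ≤ P.card := by positivity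
    linarith)
  have hΛ1 : 1 ≤ Λ := by linarith
  have hC0 : (0:ℝ) < C := by linarith
  have hC0' : 0 < C := by exact_mod_cast hC0
  set M := C + 2 * (dists P).card + 1 with hM
  -- the first power with `C 2^J > M`
  have hex : ∃ J, M < C * 2 ^ J := ⟨M, by
    calc M < 2 ^ M := Nat.lt_two_pow_self
      _ ≤ C * 2 ^ M := Nat.le_mul_of_pos_left _ hC0'⟩
  set J := Nat.find hex with hJ
  have hJ1 : M < C * 2 ^ J := Nat.find_spec hex
  have hJ2 : C * 2 ^ J ≤ 4 * M := by
    rcases Nat.eq_zero_or_pos J with h0 | h0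
    · rw [h0, pow_zero, mul_one]; omega
    · have h1 := Nat.find_min hex (m := J - 1) (by omega)
      push Not at h1
      have h2 : C * 2 ^ J = 2 * (C * 2 ^ (J - 1)) := by
        obtain ⟨j, hj⟩ : ∃ j, J = j + 1 := ⟨J - 1, by omega⟩
        rw [hj, Nat.add_sub_cancel, pow_succ]; ring
      omega
  have hsub : P.offDiag \ good P C ⊆ (P.offDiag.filter fun p => C ≤ lineCard P p.1 p.2 ∧
        lineCard P p.1 p.2 < C * 2 ^ J) := by
    intro p hp
    rw [mem_sdiff, good, mem_filter] at hp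
    rw [mem_filter]
    have h1 : C < lineCard P p.1 p.2 := by
      by_contra h
      exact hp.2 ⟨hp.1, by omega⟩
    have h2 := lineCard_le P (mem_offDiag.1 hp.1).1 (mem_offDiag.1 hp.1).2.2
    exact ⟨hp.1, h1.le, by omega⟩
  have h1 := card_rich_le P Λ hΛ C hC J
  have h2 : ((P.offDiag \ good P C).card : ℝ) ≤ ((P.offDiag.filter fun p =>
      C ≤ lineCard P p.1 p.2 ∧ lineCard P p.1 p.2 < C * 2 ^ J).card : ℝ) := by
    exact_mod_cast card_le_card hsub
  have h3 : 2 ^ 14 * Λ ^ 2 * ((P.card : ℝ) ^ 2 / C) * (2 - 2 / 2 ^ J) ≤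
      2 ^ 15 * Λ ^ 2 * ((P.card : ℝ) ^ 2 / C) := by
    have h4 : (0:ℝ) ≤ 2 ^ 14 * Λ ^ 2 * ((P.card : ℝ) ^ 2 / C) := by positivity
    have h5 : (0:ℝ) ≤ 2 / 2 ^ J := by positivity
    nlinarith
  have h4 : (C * 2 ^ J : ℝ) ≤ 4 * (C + 2 * (dists P).card + 1) := by
    have : ((C * 2 ^ J : ℕ) : ℝ) ≤ ((4 * M : ℕ) : ℝ) := by exact_mod_cast hJ2
    rw [hM] at this
    push_cast at this
    exact this
  have h5 : 8 * (P.card : ℝ) * (C * 2 ^ J) ≤ 32 * P.card * (C + 2 * (dists P).card + 1) := by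
    have h6 : (0:ℝ) ≤ 8 * P.card := by positivity
    nlinarith [mul_le_mul_of_nonneg_left h4 h6]
  linarith

/-- (S1a) most pairs lie on lines with at most `C` points -/
theorem card_good_ge (P : Finset (E n)) (C : ℕ)
    (hC : 2 ^ 18 * (12 * Real.log (P.card + 1) + 1) ^ 2 ≤ C)
    (hP : 256 * (C + 2 * ((dists P).card : ℝ) + 1) ≤ P.card) :
    (P.card : ℝ) ^ 2 ≤ 2 * ((good P C).card : ℝ) := by
  classical
  have hlog : 0 ≤ Real.log ((P.card : ℝ) + 1) := Real.log_nonneg (by
    have : (0:ℝ) ≤ P.card := by positivity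
    linarith)
  set Λ : ℝ := 12 * Real.log (P.card + 1) + 1 with hΛ
  have hΛ1 : 1 ≤ Λ := by linarith
  have hC1 : 64 * Λ ≤ C := by nlinarith
  have hC0 : (0:ℝ) < C := by linarith
  have h1 := card_bad_le P Λ le_rfl C hC1
  have hN0 : (0:ℝ) ≤ P.card := by positivity
  have h2 : 2 ^ 15 * Λ ^ 2 * ((P.card : ℝ) ^ 2 / C) ≤ (P.card : ℝ) ^ 2 / 8 := by
    rw [mul_div_assoc', div_le_div_iff₀ hC0 (by norm_num)]
    have h3 : (0:ℝ) ≤ (P.card : ℝ) ^ 2 := by positivity
    nlinarith [mul_le_mul_of_nonneg_left hC h3]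
  have h3 : 32 * (P.card : ℝ) * (C + 2 * (dists P).card + 1) ≤ (P.card : ℝ) ^ 2 / 8 := by
    have := mul_le_mul_of_nonneg_left hP hN0
    nlinarith
  have h4 : (P.offDiag.card : ℝ) ≤ ((P.offDiag \ good P C).card : ℝ) + (good P C).card := by
    have h5 : P.offDiag ⊆ (P.offDiag \ good P C) ∪ good P C := by
      intro p hp
      rw [mem_union, mem_sdiff]
      by_cases h : p ∈ good P C
      · exact Or.inr h
      · exact Or.inl ⟨hp, h⟩
    exact_mod_cast (card_le_card h5).trans (card_union_le _ _)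
  have h5 : (P.offDiag.card : ℝ) = (P.card : ℝ) ^ 2 - P.card := by
    rw [offDiag_card]
    have : P.card ≤ P.card * P.card := Nat.le_mul_self _
    push_cast [Nat.cast_sub this]
    ring
  have h6 : (256:ℝ) ≤ P.card := by
    have : (0:ℝ) ≤ (dists P).card := by positivity
    linarith
  nlinarith

open scoped Classical in
/-- the edges `(s, r)` such that both lines have at most `C` points of `P` -/
noncomputable def edges₀ (P : Finset (E n)) (C : ℕ) : Finset ((E n × E n) × (E n × E n)) :=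
  (edges P).filter fun e => lineCard P e.1.1 e.2.1 ≤ C ∧ lineCard P e.1.2 e.2.2 ≤ C

theorem mem_edges₀ {P : Finset (E n)} {C : ℕ} {e : (E n × E n) × (E n × E n)} :
    e ∈ edges₀ P C ↔ e ∈ edges P ∧ lineCard P e.1.1 e.2.1 ≤ C ∧ lineCard P e.1.2 e.2.2 ≤ C := by
  classical
  rw [edges₀, mem_filter]

theorem edges₀_subset (P : Finset (E n)) (C : ℕ) : edges₀ P C ⊆ edges P := by
  classical
  exact filter_subset _ _

theorem edges₀_symm {P : Finset (E n)} {C : ℕ} {e : (E n × E n) × (E n × E n)}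
    (h : e ∈ edges₀ P C) : (e.2, e.1) ∈ edges₀ P C := by
  rw [mem_edges₀] at h ⊢
  refine ⟨edges_symm h.1, ?_, ?_⟩
  · rw [lineCard_comm]; exact h.2.1
  · rw [lineCard_comm]; exact h.2.2

/-- (S1c) Cauchy–Schwarz on the good pairs -/
theorem card_edges₀_ge (P : Finset (E n)) (C : ℕ) :
    (good P C).card ^ 2 ≤ (dists P).card * (edges₀ P C).card := by
  classical
  set f : E n × E n → ℝ := fun p => dist p.1 p.2 with hf
  set G := good P C with hG
  have hGs : ∀ p ∈ G, p.1 ∈ P ∧ p.2 ∈ P ∧ p.1 ≠ p.2 ∧ lineCard P p.1 p.2 ≤ C := by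
    intro p hp
    rw [hG, good, mem_filter, mem_offDiag] at hp
    exact ⟨hp.1.1, hp.1.2.1, hp.1.2.2, hp.2⟩
  have h2 : G.card = ∑ r ∈ dists P, (G.filter fun p => f p = r).card := by
    refine Finset.card_eq_sum_card_fiberwise ?_
    intro p hp
    have h := hGs p hp
    rw [coe_dists]
    exact ⟨p.1, h.1, p.2, h.2.1, h.2.2.1, rfl⟩
  have h3 : (∑ r ∈ dists P, (G.filter fun p => f p = r).card) ^ 2 ≤
      (dists P).card * ∑ r ∈ dists P, (G.filter fun p => f p = r).card ^ 2 :=
    sq_sum_le_card_mul_sum_sq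
  rw [h2]
  refine h3.trans (Nat.mul_le_mul_left _ ?_)
  have h4 : ∀ r ∈ dists P, (G.filter fun p => f p = r).card ^ 2 =
      ((G.filter fun p => f p = r) ×ˢ (G.filter fun p => f p = r)).card := by
    intro r _
    rw [Finset.card_product, sq]
  rw [Finset.sum_congr rfl h4, ← Finset.card_biUnion]
  · refine Finset.card_le_card_of_injOn (fun q => ((q.1.1, q.2.1), (q.1.2, q.2.2))) ?_ ?_
    · intro q hq
      simp only [Finset.coe_biUnion, Finset.mem_coe, Set.mem_iUnion, Finset.mem_product,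
        Finset.mem_filter, exists_prop] at hq
      obtain ⟨r, hr, ⟨h5, h8⟩, ⟨h9, h12⟩⟩ := hq
      have h5' := hGs _ h5
      have h9' := hGs _ h9
      simp only [Finset.mem_coe]
      rw [mem_edges₀, mem_edges]
      exact ⟨⟨⟨⟨h5'.1, h9'.1⟩, ⟨h5'.2.1, h9'.2.1⟩⟩, h5'.2.2.1, h8.trans h12.symm⟩,
        h5'.2.2.2, h9'.2.2.2⟩
    · intro q _ q' _ h
      simp only [Prod.mk.injEq] at h
      obtain ⟨⟨h1, h2⟩, ⟨h3, h4⟩⟩ := h
      exact Prod.ext (Prod.ext h1 h3) (Prod.ext h2 h4)
  · intro r _ r' _ hne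
    rw [Function.onFun, Finset.disjoint_left]
    intro q hq hq'
    simp only [Finset.mem_product, Finset.mem_filter] at hq hq'
    exact hne (hq.1.2.symm.trans hq'.1.2)

/-- (S1) many edges between good pairs: `n⁴ ≤ 4 t |E₀|` -/
theorem card_edges₀ (P : Finset (E n)) (C : ℕ)
    (hC : 2 ^ 18 * (12 * Real.log (P.card + 1) + 1) ^ 2 ≤ C)
    (hP : 256 * (C + 2 * ((dists P).card : ℝ) + 1) ≤ P.card) :
    (P.card : ℝ) ^ 4 ≤ 4 * ((dists P).card * (edges₀ P C).card) := by
  have h1 := card_good_ge P C hC hP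
  have h2 : ((good P C).card : ℝ) ^ 2 ≤ (dists P).card * (edges₀ P C).card := by
    exact_mod_cast card_edges₀_ge P C
  have h3 : ((P.card : ℝ) ^ 2) ^ 2 ≤ (2 * ((good P C).card : ℝ)) ^ 2 :=
    pow_le_pow_left₀ (by positivity) h1 2
  nlinarith

/-- (S1d) if all the `r` in a set `R` of neighbours of `s` lie on one line through `s.1`, and
`r.2` is determined by `r.1`, there are at most `C` of them -/
theorem card_collinear_le (P : Finset (E n)) (C : ℕ) (s : E n × E n)
    (R : Finset (E n × E n)) (hR : ∀ r ∈ R, (s, r) ∈ edges₀ P C)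
    (hcol : ∀ r ∈ R, ∀ r' ∈ R, onLine s.1 r.1 r'.1)
    (hinj : ∀ r ∈ R, ∀ r' ∈ R, r.1 = r'.1 → r.2 = r'.2) : R.card ≤ C := by
  classical
  rcases R.eq_empty_or_nonempty with h0 | ⟨r, hr⟩
  · rw [h0]; simp
  have h1 := mem_edges₀.1 (hR r hr)
  refine le_trans ?_ h1.2.1
  rw [lineCard_eq]
  refine Finset.card_le_card_of_injOn (fun r' => r'.1) ?_ ?_
  · intro r' hr'
    simp only [Finset.coe_filter, Set.mem_setOf_eq]
    exact ⟨(mem_edges.1 (mem_edges₀.1 (hR r' hr')).1).1.2.1, hcol r hr r' hr'⟩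
  · intro r' hr' r'' hr'' h
    exact Prod.ext h (hinj r' hr' r'' hr'' h)

/-- two neighbours of `s` with the same meeting point: `r.1` determines `r.2` -/
theorem snd_eq_of_mu_eq (B : E n ≃ₗᵢ[ℝ] E n) {s r r' : E n × E n}
    (h0 : (zt B s).1 0 ≠ (zt B r).1 0) (h0' : (zt B s).1 0 ≠ (zt B r').1 0)
    (hr : dist s.1 r.1 = dist s.2 r.2) (hr' : dist s.1 r'.1 = dist s.2 r'.2)
    (hmu : mu (zt B s) (zt B r) = mu (zt B s) (zt B r')) (h : r.1 = r'.1) : r.2 = r'.2 := by
  have e1 : leaf (zt B s) (mu (zt B s) (zt B r)) = leaf (zt B r) (mu (zt B s) (zt B r)) :=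
    (leaf_eq_leaf_iff h0 _ _).2 ⟨rfl, rfl, (Qf_zt_sub_eq_zero B s r).2 hr⟩
  have e2 : leaf (zt B s) (mu (zt B s) (zt B r)) = leaf (zt B r') (mu (zt B s) (zt B r)) :=
    (leaf_eq_leaf_iff h0' _ _).2 ⟨hmu, hmu, (Qf_zt_sub_eq_zero B s r').2 hr'⟩
  have e3 := e1.symm.trans e2
  by_cases hz : (zt B r).1 0 = (zt B r').1 0
  · -- then all coordinates of `ζ` agree
    have h2 : ∀ i : Fin (n + 1), (zt B r).1 i = (zt B r').1 i := by
      intro i
      refine Fin.cases hz (fun j => ?_) i
      have h3 := congrFun e3 (Sum.inr (Sum.inl j))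
      simp only [leaf] at h3
      rw [hz] at h3
      linarith
    have h3 : B r.2 = B r'.2 := by
      ext i
      have h4 := h2 i
      simp only [zt] at h4
      rw [h] at h4
      linarith
    exact B.injective h3
  · have h5 := ((leaf_eq_leaf_iff hz _ _).1 e3).2.2
    rw [Qf_zt_sub_eq_zero, h, dist_self] at h5
    exact dist_eq_zero.1 h5.symm

/-- (S1d) at most `C` edges of `E₀` at `s` have the same point `u` on the leaf of `s`, when any
three points of `P × P` on one `g` have collinear first components (generic `B`) -/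
theorem card_same_mu_le (P : Finset (E n)) (C : ℕ) (B : E n ≃ₗᵢ[ℝ] E n) (s : E n × E n)
    (h0 : ∀ r, (s, r) ∈ edges₀ P C → (zt B s).1 0 ≠ (zt B r).1 0)
    (hcol : ∀ r r', (s, r) ∈ edges₀ P C → (s, r') ∈ edges₀ P C →
      mu (zt B s) (zt B r) = mu (zt B s) (zt B r') → onLine s.1 r.1 r'.1)
    (u : Fin n → ℝ) (R : Finset (E n × E n))
    (hR : ∀ r ∈ R, (s, r) ∈ edges₀ P C ∧ mu (zt B s) (zt B r) = u) : R.card ≤ C := by
  refine card_collinear_le P C s R (fun r hr => (hR r hr).1) ?_ ?_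
  · intro r hr r' hr'
    exact hcol r r' (hR r hr).1 (hR r' hr').1 ((hR r hr).2.trans (hR r' hr').2.symm)
  · intro r hr r' hr' h
    have h1 := (mem_edges.1 (mem_edges₀.1 (hR r hr).1).1).2.2
    have h2 := (mem_edges.1 (mem_edges₀.1 (hR r' hr').1).1).2.2
    exact snd_eq_of_mu_eq B (h0 r (hR r hr).1) (h0 r' (hR r' hr').1) h1 h2
      ((hR r hr).2.trans (hR r' hr').2.symm) h

/-- the number of edges at `s` is at most `C` times the number of points on its leaf -/
theorem card_leaf_le (P : Finset (E n)) (C : ℕ) (B : E n ≃ₗᵢ[ℝ] E n) (s : E n × E n)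
    (h0 : ∀ r, (s, r) ∈ edges₀ P C → (zt B s).1 0 ≠ (zt B r).1 0)
    (hcol : ∀ r r', (s, r) ∈ edges₀ P C → (s, r') ∈ edges₀ P C →
      mu (zt B s) (zt B r) = mu (zt B s) (zt B r') → onLine s.1 r.1 r'.1)
    (R : Finset (E n × E n)) (hR : ∀ r ∈ R, (s, r) ∈ edges₀ P C)
    (U : Finset (Fin n → ℝ)) (hU : ∀ r ∈ R, mu (zt B s) (zt B r) ∈ U) :
    R.card ≤ C * U.card := by
  classical
  refine Finset.card_le_mul_card_image_of_maps_to
    (f := fun r => mu (zt B s) (zt B r)) hU C ?_
  intro u _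
  refine card_same_mu_le P C B s h0 hcol u _ ?_
  intro r hr
  rw [mem_filter] at hr
  exact ⟨hR r hr.1, hr.2⟩

end Vale.Agent.P054.T2.H269
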