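import Vale.Agent.P054.T2.H269.SideC
import Vale.Agent.P054.T2.H819.QMG

/-!
# P054 / T2, section C, row [C1]: the count on one leaf
-/

set_option autoImplicit false
set_option linter.all false

namespace Vale.Agent.P054.T2.H269

open MvPolynomial Finset Module
open Vale.Agent.P054.T2 Vale.Agent.P054.T2.SecC
open Vale.Agent.P054.T2.H686 (mu meet Qf Crd leaf)
open Vale.Agent.P054.T2.H580 (Vw hilbF rkF IsFilt)
open Vale.Agent.P054.T2.H930 (germ mx grad J)

variable {n : ℕ} {A : Finset (ZZ n × ZZ n)} {W D σ v : ℕ} (S : Side n A W D σ v)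

theorem CG_mono : Monotone H819.CG := by
  refine monotone_nat_of_le_succ fun e => ?_
  show H819.CG e ≤ 8 ^ (e + 1) * H819.CG e
  exact Nat.le_mul_of_pos_left _ (by positivity)

/-- the constant of the count on one leaf -/
def Cs (n : ℕ) : ℕ := Cc n + Cn n * (4 ^ n * n.factorial * H819.CG n * 2)

/-- growth of a class which is countable for infinitely many `k` -/
theorem growth_of_freq (S : Side n A W D σ 0) {e : ZZ n × ZZ n} (he : e ∈ A) {N : ℕ}
    (h : ∃ a₀ : ℕ, ∀ K : ℕ, ∃ k, K ≤ k ∧ (S.cls e).card * (k + σ).choose σ ≤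
      2 * hilbF (Vw ℝ (wt W)) (S.P e) ((k + 1) * (N + 1) + a₀)) :
    ∃ m₀ : ℕ, ∀ m, m₀ ≤ m → m ^ σ * (S.cls e).card ≤
      ((4 ^ n * n.factorial * H819.CG n * 2) * (N + 1) ^ σ) *
        hilbF (Vw ℝ (wt W)) (S.P e) m := by
  classical
  have hσ := S.hσ
  have hq : H819.QMon (hilbF (Vw ℝ (wt W)) (S.P e)) σ W :=
    H819.qm_germ (isFilt_wt S.hW) (X_mem_wt S.hW) (hx e.1 e.2) (S.F e.1) (S.hzero e he)
      (S.hind e he) (by simp; omega)
  obtain ⟨a₀, h⟩ := h
  obtain ⟨k, hk, hkk⟩ := h (a₀ + W)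
  refine ⟨(k + 1) * (N + 2), fun m hm => ?_⟩
  refine (hq.of_one (by omega) (by omega) hkk m hm).trans (Nat.mul_le_mul_right _ ?_)
  calc (2 * (N + 2)) ^ σ * σ.factorial * H819.CG σ * 2
      ≤ (4 * (N + 1)) ^ σ * n.factorial * H819.CG n * 2 := by
        have h1 : (2 * (N + 2)) ^ σ ≤ (4 * (N + 1)) ^ σ := Nat.pow_le_pow_left (by omega) _
        have h2 := Nat.factorial_le hσ
        have h3 := CG_mono hσ
        gcongr
    _ = 4 ^ σ * n.factorial * H819.CG n * 2 * (N + 1) ^ σ := by rw [mul_pow]; ring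
    _ ≤ _ := by
        have h1 : 4 ^ σ ≤ 4 ^ n := Nat.pow_le_pow_right (by norm_num) hσ
        gcongr

open Classical in
/-- **[C1]**: the edges on the leaf of `s` which are countable from `s` -/
theorem side_count (s : ZZ n) (N g : ℕ) :
    (A.filter fun e => e.1 = s ∧ S.Cnt N g e).card ≤
      Cs n * D ^ (2 * (n + 1)) * W ^ (n - σ) * ((N + 1) ^ σ + g) := by
  set B₁ := A.filter fun e => e.1 = s ∧ (S.cls e).card ≤ g with hB₁
  set B₂ := A.filter fun e => e.1 = s ∧ (v = 0 ∧ ∃ a₀ : ℕ, ∀ K : ℕ, ∃ k, K ≤ k ∧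
    (S.cls e).card * (k + σ).choose σ ≤
      2 * hilbF (Vw ℝ (wt W)) (S.P e) ((k + 1) * (N + 1) + a₀)) with hB₂
  have hsub : (A.filter fun e => e.1 = s ∧ S.Cnt N g e) ⊆ B₁ ∪ B₂ := by
    intro e he
    obtain ⟨heA, hes, h | h⟩ := Finset.mem_filter.1 he
    · exact Finset.mem_union_left _ (Finset.mem_filter.2 ⟨heA, hes, h⟩)
    · exact Finset.mem_union_right _ (Finset.mem_filter.2 ⟨heA, hes, h⟩)
  have h1 : B₁.card ≤ Cc n * D ^ (2 * (n + 1)) * W ^ (n - σ) * g :=
    side_count_small S s B₁ (Finset.filter_subset _ _)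
      (fun e he => (Finset.mem_filter.1 he).2.1) (fun e he => (Finset.mem_filter.1 he).2.2)
  have h2 : B₂.card ≤ ((4 ^ n * n.factorial * H819.CG n * 2) * (N + 1) ^ σ) *
      (Cn n * D ^ (2 * (n + 1)) * W ^ (n - σ)) := by
    by_cases hv : v = 0
    · subst hv
      refine side_count_growth S s B₂ (Finset.filter_subset _ _)
        (fun e he => (Finset.mem_filter.1 he).2.1) fun e he => ?_
      obtain ⟨heA, -, -, h⟩ := Finset.mem_filter.1 he
      exact growth_of_freq S heA h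
    · have : B₂ = ∅ := by
        rw [Finset.eq_empty_iff_forall_notMem]
        intro e he
        exact hv (Finset.mem_filter.1 he).2.2.1
      rw [this, Finset.card_empty]
      exact Nat.zero_le _
  calc (A.filter fun e => e.1 = s ∧ S.Cnt N g e).card ≤ (B₁ ∪ B₂).card :=
        Finset.card_le_card hsub
    _ ≤ B₁.card + B₂.card := Finset.card_union_le _ _
    _ ≤ Cc n * D ^ (2 * (n + 1)) * W ^ (n - σ) * g +
        ((4 ^ n * n.factorial * H819.CG n * 2) * (N + 1) ^ σ) *
          (Cn n * D ^ (2 * (n + 1)) * W ^ (n - σ)) := Nat.add_le_add h1 h2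
    _ ≤ (Cc n + Cn n * (4 ^ n * n.factorial * H819.CG n * 2)) * D ^ (2 * (n + 1)) *
          W ^ (n - σ) * g +
        (Cc n + Cn n * (4 ^ n * n.factorial * H819.CG n * 2)) * D ^ (2 * (n + 1)) *
          W ^ (n - σ) * (N + 1) ^ σ := by
        refine Nat.add_le_add ?_ ?_
        · have : Cc n ≤ Cc n + Cn n * (4 ^ n * n.factorial * H819.CG n * 2) :=
            Nat.le_add_right _ _
          gcongr
        · calc ((4 ^ n * n.factorial * H819.CG n * 2) * (N + 1) ^ σ) *
                (Cn n * D ^ (2 * (n + 1)) * W ^ (n - σ))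
              = (Cn n * (4 ^ n * n.factorial * H819.CG n * 2)) * D ^ (2 * (n + 1)) *
                W ^ (n - σ) * (N + 1) ^ σ := by ring
            _ ≤ _ := by
                have : Cn n * (4 ^ n * n.factorial * H819.CG n * 2) ≤
                    Cc n + Cn n * (4 ^ n * n.factorial * H819.CG n * 2) := Nat.le_add_left _ _
                gcongr
    _ = Cs n * D ^ (2 * (n + 1)) * W ^ (n - σ) * ((N + 1) ^ σ + g) := by
        unfold Cs; ring

end Vale.Agent.P054.T2.H269
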