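import Vale.Agent.P054.T2.H269.GStarNum
import Vale.Agent.P054.T2.H701.GStarEdge
import Vale.Agent.P054.T2.H794.AData

/-!
# P054 / T2: [G*] over the uniform set of edges (`H794.AData`), numbers inside (helper269)

Base = hat of `s` (`gstar_A1`) or hat of `r` (`gstar_A2`); the system of `Z+` is `sysZ f g g'`.
-/

open MvPolynomial Module Finset

namespace Vale.Agent.P054.T2.H269

open H580 (Vw rkF wh kap IsFilt Par)
open H930 (germ grad sysZ Pt ptc edgePt hatPt j1 j2)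
open H307 (pts mem_pts van mem_van fib IsFam IsUnif FI cA JA NN Ed xF xH1 xH2)
open H794 (AData Cw)
open H686 (Crd mu meet Qf)

theorem Cg_le (N : ℕ) : Cg N ≤ ((2 * (N + 2)) ^ N) ^ 3 := by
  unfold Cg
  have h1 : N.factorial ≤ (N + 2) ^ N := (Nat.factorial_le_pow N).trans
    (Nat.pow_le_pow_left (by omega) _)
  have h2 : (N + 1) ^ N ≤ (N + 2) ^ N := Nat.pow_le_pow_left (by omega) _
  have h3 : 1 ≤ 2 ^ N := Nat.one_le_two_pow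
  calc N.factorial * (2 ^ N * ((N + 1) ^ N * (N + 2) ^ N)) * 2 ^ N
      ≤ (N + 2) ^ N * (2 ^ N * ((N + 2) ^ N * (N + 2) ^ N)) * 2 ^ N :=
        Nat.mul_le_mul_right _ (Nat.mul_le_mul h1 (Nat.mul_le_mul_left _
          (Nat.mul_le_mul_right _ h2)))
    _ = ((N + 2) ^ N * (N + 2) ^ N * (N + 2) ^ N * (2 ^ N * 2 ^ N)) * 1 := by ring
    _ ≤ ((N + 2) ^ N * (N + 2) ^ N * (N + 2) ^ N * (2 ^ N * 2 ^ N)) * 2 ^ N :=
        Nat.mul_le_mul_left _ h3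
    _ = ((2 * (N + 2)) ^ N) ^ 3 := by rw [mul_pow]; ring

/-- pure numbers -/
theorem num_step {b k₀ i₀ i₁ i G R R' c₀ c₁ c₂ u e₁ rk Cs Λ S₁ S₂ P₁ P₂ : ℕ} (hb : 1 ≤ b)
    (hu : c₂ + u = R') (he : G + R - (c₀ + c₁) = e₁ + 1) (hc₀ : c₀ ≤ G)
    (s1 : P₁ + k₀ * (G - c₀) = S₁) (s2 : P₂ + i₁ * (G + R - (c₀ + c₁)) = S₂)
    (key : (b ^ k₀) ^ (R + R') * (b ^ (i₁ - i) * rk) ≤
      Cs * ((b ^ P₁ * b ^ (c₁ * k₀ + P₂) * b ^ ((k₀ + i₀) * c₂)) * (b ^ k₀) ^ u) *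
        (b ^ (k₀ + i₁) + b ^ k₀) ^ (e₁ + 1))
    (h0 : b ^ (S₁ + S₂) ≤ Λ * rk)
    (hJ : Cs * 2 ^ (e₁ + 1) * b ^ (i₀ * c₂) * Λ < b ^ (i₁ - i)) : False := by
  have hpos : 0 < (b ^ k₀) ^ (R + R') := Nat.pow_pos (Nat.pow_pos hb)
  have hT : b ^ (k₀ + i₁) + b ^ k₀ ≤ 2 * b ^ (k₀ + i₁) := by
    have := Nat.pow_le_pow_right hb (Nat.le_add_right k₀ i₁)
    omega
  have hexp : P₁ + (c₁ * k₀ + P₂) + (k₀ + i₀) * c₂ + k₀ * u + (k₀ + i₁) * (e₁ + 1) =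
      k₀ * (R + R') + i₀ * c₂ + (S₁ + S₂) := by
    rw [← s1, ← s2, he]
    have e1 : G - c₀ + R = c₁ + (e₁ + 1) := by omega
    have e2 : k₀ * (G - c₀) + k₀ * R = k₀ * c₁ + k₀ * (e₁ + 1) := by
      rw [← mul_add, e1, mul_add]
    have e3 : k₀ * R' = k₀ * c₂ + k₀ * u := by rw [← hu, mul_add]
    have e4 : (k₀ + i₀) * c₂ = k₀ * c₂ + i₀ * c₂ := by ring
    have e5 : (k₀ + i₁) * (e₁ + 1) = k₀ * (e₁ + 1) + i₁ * (e₁ + 1) := by ring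
    have e6 : k₀ * (R + R') = k₀ * R + k₀ * R' := by ring
    have e7 : c₁ * k₀ = k₀ * c₁ := mul_comm _ _
    rw [e4, e5, e6, e7]
    omega
  have h1 : (b ^ k₀) ^ (R + R') * (b ^ (i₁ - i) * rk) ≤
      (b ^ k₀) ^ (R + R') * (Cs * 2 ^ (e₁ + 1) * b ^ (i₀ * c₂) * b ^ (S₁ + S₂)) := by
    calc (b ^ k₀) ^ (R + R') * (b ^ (i₁ - i) * rk)
        ≤ Cs * ((b ^ P₁ * b ^ (c₁ * k₀ + P₂) * b ^ ((k₀ + i₀) * c₂)) * (b ^ k₀) ^ u) *
          (b ^ (k₀ + i₁) + b ^ k₀) ^ (e₁ + 1) := key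
      _ ≤ Cs * ((b ^ P₁ * b ^ (c₁ * k₀ + P₂) * b ^ ((k₀ + i₀) * c₂)) * (b ^ k₀) ^ u) *
          (2 * b ^ (k₀ + i₁)) ^ (e₁ + 1) :=
          Nat.mul_le_mul_left _ (Nat.pow_le_pow_left hT _)
      _ = Cs * 2 ^ (e₁ + 1) * b ^ (P₁ + (c₁ * k₀ + P₂) + (k₀ + i₀) * c₂ + k₀ * u +
            (k₀ + i₁) * (e₁ + 1)) := by
          rw [mul_pow, ← pow_mul, ← pow_mul, pow_add b (P₁ + (c₁ * k₀ + P₂) + (k₀ + i₀) * c₂ +
            k₀ * u), pow_add b (P₁ + (c₁ * k₀ + P₂) + (k₀ + i₀) * c₂),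
            pow_add b (P₁ + (c₁ * k₀ + P₂)), pow_add b P₁]
          ring
      _ = _ := by rw [hexp, pow_add, pow_add, ← pow_mul]; ring
  have h2 := Nat.le_of_mul_le_mul_left h1 hpos
  have h3 : Cs * 2 ^ (e₁ + 1) * b ^ (i₀ * c₂) * b ^ (S₁ + S₂) ≤
      Cs * 2 ^ (e₁ + 1) * b ^ (i₀ * c₂) * Λ * rk := by
    rw [mul_assoc (Cs * 2 ^ (e₁ + 1) * b ^ (i₀ * c₂))]
    exact Nat.mul_le_mul_left _ h0
  have h4 : 0 < rk := by
    rcases Nat.eq_zero_or_pos rk with h | h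
    · rw [h, mul_zero] at h0
      have := Nat.pow_pos (n := S₁ + S₂) hb
      omega
    · exact h
  have h5 := Nat.mul_lt_mul_of_pos_right hJ h4
  omega

section A

variable {n k β C₁ L K₀ q C k₀ i₀ i₁ Wg : ℕ} {E' : Finset (Ed n ℝ)} {v : FI × ℕ → ℕ}

/-- common part of the two sides -/
theorem gA_core (h : AData n k β C₁ L K₀ q C k₀ i₀ i₁ Wg E' v)
    (hC : 2 * (NN n * NN n) + 2 * n + 10 ≤ C) {β' : ℕ} (hq : 2 * β' ≤ q)
    (x : Ed n ℝ → Crd n ⊕ Pt n → ℝ) (hx : ∀ e, x e ∘ Sum.inl = xF e) (idxH : ℕ → FI × ℕ)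
    (hFH : IsFam (cA n ℝ (β ^ L)) (JA K₀) idxH i₁ x (fun _ => ())
      (Vw ℝ (wh (Crd n) (Pt n) ((β ^ L) ^ k₀))) ((β ^ L) ^ k₀) (β ^ L))
    (hwin : ∀ i, i₀ ≤ i → i ≤ i₁ → v (idxH i) = v (idxH i₀))
    {c₀ c₁ c₂ u e₁ : ℕ} (hc₀ : v (FI.F, k₀) = c₀) (hc₁ : c₀ + c₁ = v (idxH i₀))
    (hu : c₂ + u = 2 * (n + 1)) (he₁ : Fintype.card (Crd n) + Fintype.card (Pt n) - (c₀ + c₁) = e₁ + 1)
    (Bd : Finset (Ed n ℝ)) (hBE : Bd ⊆ E') (hcard : E'.card < β' * Bd.card)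
    [DecidableEq (Crd n ⊕ Pt n → ℝ)] {N' : ℕ} (hN' : N' = NN n)
    (key : ((β ^ L) ^ k₀) ^ (Fintype.card (Pt n) + Fintype.card (Pt n)) *
        ((β ^ L) ^ (i₁ - 1) * rkF (Vw ℝ (wh (Crd n) (Pt n) ((β ^ L) ^ k₀))) (Bd.image x)
          ((β ^ L) ^ (k₀ + i₁))) ≤
      H701.CS e₁ u N' *
        (((∏ j ∈ range c₀, (β ^ L) ^ kap (k₀ + 1) (fun i => v (FI.F, i)) j) *
          (∏ j ∈ range c₁, (β ^ L) ^ (k₀ + kap (i₀ + 1) (fun i => v (idxH i)) (c₀ + j))) *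
          (∏ j ∈ range c₂, (β ^ L) ^ (k₀ + i₀))) * ((β ^ L) ^ k₀) ^ u) *
        ((β ^ L) ^ (k₀ + i₁) + (β ^ L) ^ k₀) ^ (e₁ + 1)) : False := by
  classical
  subst hN'
  have hγ : Fintype.card (Crd n) = 2 * n + 1 := by simp [Crd]; ring
  have hρ : Fintype.card (Pt n) = 2 * (n + 1) := by simp [Pt]; ring
  have hb1 : 1 < β ^ L := h.hb
  have hb : 1 ≤ β ^ L := hb1.le
  have hC1 : 1 ≤ C := by omega
  have hi01 : i₀ ≤ i₁ := h.i₀_le hC1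
  have hk₀ : k₀ ≤ K₀ := h.k₀_le
  have hi₁ : i₁ ≤ K₀ := by have := h.i₁_le_K hC1; omega
  have hxF : (fun e => x e ∘ Sum.inl) = xF := funext hx
  have hFF : IsFam (cA n ℝ (β ^ L)) (JA K₀) (fun i => (FI.F, i)) k₀ (fun e => x e ∘ Sum.inl)
      (fun _ => ()) (restrictTotalDegree (Crd n) ℝ) 1 (β ^ L) := by
    rw [hxF]
    exact fun j hj => h.isF j (hj.trans hk₀)
  have hVT := H580.isFilt_total (k := ℝ) (σ := Crd n)
  have hVH := H580.isFilt_Vw (k := ℝ) (wh (Crd n) (Pt n) ((β ^ L) ^ k₀))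
    (H580.wh_ne_zero (Nat.one_le_pow _ _ hb))
  -- `c₀ ≤ v (idxH i)`
  obtain ⟨f, hf, hind⟩ := H580.fam_sys h.unif h.ne h.hβ1 hVT hb hFF k₀ le_rfl ()
  have hge := (H580.hat_sys h.unif h.ne h.hβ1 hb1 k₀ hFF hFH le_rfl (fun _ => f)
    (fun _ j => by have h1 := hf j; rwa [one_mul] at h1) (fun e he => hind e he rfl)).1
  have hc₀γ : c₀ ≤ Fintype.card (Crd n) := by
    rw [← hc₀]; exact H580.fam_le_card h.unif h.ne hFF le_rfl
  -- the slopes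
  have s1 : (∑ j ∈ range c₀, kap (k₀ + 1) (fun i => v (FI.F, i)) j) +
      k₀ * (Fintype.card (Crd n) - c₀) =
      ∑ j ∈ range k₀, (Fintype.card (Crd n) - v (FI.F, j)) := by
    have := H580.sum_kap_window (Fintype.card (Crd n)) (k₀ + 1) k₀ (fun i => v (FI.F, i))
      (le_refl _)
      (fun k l hkl hl => h.unif.fam_mono h.ne h.hβ1 hVT.mono hb hFF hkl (by omega))
      (by simpa [hc₀] using hc₀γ)
      (fun k h1 h2 => by simp only [Nat.add_sub_cancel] at h1; omega)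
    simpa [hc₀] using this
  have s2 : (∑ j ∈ range c₁, kap (i₀ + 1) (fun i => v (idxH i)) (c₀ + j)) +
      i₁ * (Fintype.card (Crd n) + Fintype.card (Pt n) - (c₀ + c₁)) =
      ∑ i ∈ range i₁, (Fintype.card (Crd n) + Fintype.card (Pt n) - v (idxH i)) := by
    have h3 := H580.sum_kap_window (Fintype.card (Crd n) + Fintype.card (Pt n)) (i₀ + 1) i₁
      (fun i => v (idxH i)) (by omega)
      (fun k l hkl hl => h.unif.fam_mono h.ne h.hβ1 hVH.mono hb hFH hkl (by omega))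
      (by simp only [Nat.add_sub_cancel, ← hc₁]; omega)
      (fun k h1 h2 => by
        simp only [Nat.add_sub_cancel] at h1 ⊢
        exact hwin k h1 h2.le)
    simp only [Nat.add_sub_cancel, ← hc₁] at h3
    rw [Finset.sum_range_add] at h3
    have h4 : ∑ j ∈ range c₀, kap (i₀ + 1) (fun i => v (idxH i)) j = 0 := by
      refine Finset.sum_eq_zero fun j hj => ?_
      refine H580.kap_eq_zero _ _ _ fun k hk => ?_
      have h5 := hge k (by omega)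
      have h6 := Finset.mem_range.1 hj
      omega
    rw [h4, zero_add] at h3
    exact h3
  -- lower bound
  obtain ⟨e, -, h0⟩ := H580.hat_lower_u h.par h.unif h.mono_fam
    (by rw [hγ, hρ]; unfold NN; omega) k₀ i₁ hFF hFH hk₀ hi₁ hBE hq hcard
  rw [H307.fib_unit, H580.pts_eq] at h0
  -- the product of the levels
  rw [Finset.prod_pow_eq_pow_sum, Finset.prod_pow_eq_pow_sum, Finset.sum_add_distrib,
    Finset.sum_const, Finset.card_range, smul_eq_mul, Finset.prod_const, Finset.card_range,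
    ← pow_mul (β ^ L) (k₀ + i₀) c₂] at key
  refine num_step (i := 1) hb (by rw [hρ]; exact hu) he₁ hc₀γ s1 s2 key h0 ?_
  -- the constants
  set X₁ := ((C₁ ^ (Fintype.card (Crd n)) * (Fintype.card (Crd n)).factorial) ^ L) ^ k₀
    with hX₁
  set X₂ := ((C₁ ^ (Fintype.card (Crd n) + Fintype.card (Pt n)) *
          (Fintype.card (Crd n) + Fintype.card (Pt n)).factorial) ^ L) ^ i₁ with hX₂
  set M₁ := Fintype.card (Crd n) * Fintype.card (Crd n) with hM₁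
  set M₂ := (Fintype.card (Crd n) + Fintype.card (Pt n)) *
    (Fintype.card (Crd n) + Fintype.card (Pt n)) with hM₂
  have hloss := h.par.loss (M₁ := 0) (M₂ := Fintype.card (Crd n))
    (M₃ := Fintype.card (Crd n) + Fintype.card (Pt n)) (Nat.zero_le _)
    (by rw [hγ]; unfold NN; omega) (by rw [hγ, hρ]; unfold NN; omega) hk₀ hi₁
  simp only [pow_zero, one_mul] at hloss
  have hCS : H701.CS e₁ u (NN n) * 2 ^ (e₁ + 1) ≤ (β ^ L) ^ 3 := by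
    refine (CS_le (by rw [hγ, hρ] at he₁; unfold NN; omega)).trans ((Cg_le _).trans ?_)
    refine Nat.pow_le_pow_left ?_ 3
    have h1 := h.par.hconst
    have h2 : 1 ≤ (C₁ ^ NN n * (NN n).factorial) ^ (2 * K₀) := Nat.pow_pos (h.par.const_pos _)
    have h3 : (2 * (NN n + 2)) ^ NN n ≤ β := (Nat.le_mul_of_pos_right _ h2).trans h1
    exact h3.trans (Nat.le_self_pow h.par.hL.ne' _)
  have hM : M₁ + M₂ ≤ 2 * (NN n * NN n) := by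
    have h1 : M₁ ≤ NN n * NN n := Nat.mul_le_mul (by rw [hγ]; unfold NN; omega)
      (by rw [hγ]; unfold NN; omega)
    have h2 : M₂ ≤ NN n * NN n := Nat.mul_le_mul (by rw [hγ, hρ]; unfold NN; omega)
      (by rw [hγ, hρ]; unfold NN; omega)
    omega
  have hgeo := h.geo
  have hc₂ : i₀ * c₂ ≤ 2 * (n + 1) * i₀ := by
    rw [mul_comm]; exact Nat.mul_le_mul_right _ (by omega)
  have hlen : 3 + i₀ * c₂ + 1 + (M₁ + M₂) < i₁ - 1 := by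
    have h1 : 2 * (n + 1) * i₀ ≤ C * i₀ := Nat.mul_le_mul_right _ (by omega)
    omega
  calc H701.CS e₁ u (NN n) * 2 ^ (e₁ + 1) * (β ^ L) ^ (i₀ * c₂) *
        ((X₁ * (β ^ L) ^ M₁) * (X₂ * (β ^ L) ^ M₂))
      = (H701.CS e₁ u (NN n) * 2 ^ (e₁ + 1)) * ((β ^ L) ^ (i₀ * c₂) * ((X₁ * X₂) *
          ((β ^ L) ^ M₁ * (β ^ L) ^ M₂))) := by ring
    _ ≤ (β ^ L) ^ 3 * ((β ^ L) ^ (i₀ * c₂) * (β ^ L * ((β ^ L) ^ M₁ * (β ^ L) ^ M₂))) :=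
        Nat.mul_le_mul hCS (Nat.mul_le_mul_left _ (Nat.mul_le_mul_right _ hloss))
    _ = (β ^ L) ^ (3 + i₀ * c₂ + 1 + (M₁ + M₂)) := by
        rw [pow_add, pow_add, pow_add, pow_add]; ring
    _ < (β ^ L) ^ (i₁ - 1) := Nat.pow_lt_pow_right hb1 hlen

/-- **[G*] over the hat of `s`.** -/
theorem gstar_A1 (h : AData n k β C₁ L K₀ q C k₀ i₀ i₁ Wg E' v)
    (hC : 2 * (NN n * NN n) + 2 * n + 10 ≤ C) {β' : ℕ} (hq : 2 * β' ≤ q)
    {c₀ c₁ c₂ : ℕ} (hc₀ : v (FI.F, k₀) = c₀) (hc₁ : c₀ + c₁ = v (FI.H1 k₀, i₀))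
    (f : Fin c₀ → MvPolynomial (Crd n) ℝ) (g : Fin c₁ → MvPolynomial (Crd n ⊕ Pt n) ℝ)
    (g' : Fin c₂ → MvPolynomial (Crd n ⊕ Pt n) ℝ)
    (hf : ∀ j : Fin c₀, f j ∈ restrictTotalDegree (Crd n) ℝ
      ((β ^ L) ^ kap (k₀ + 1) (fun i => v (FI.F, i)) (j : ℕ)))
    (hg : ∀ j : Fin c₁, g j ∈ Vw ℝ (wh (Crd n) (Pt n) ((β ^ L) ^ k₀))
      ((β ^ L) ^ (k₀ + kap (i₀ + 1) (fun i => v (FI.H1 k₀, i)) (c₀ + j))))
    (hg' : ∀ j : Fin c₂, g' j ∈ Vw ℝ (wh (Crd n) (Pt n) ((β ^ L) ^ k₀)) ((β ^ L) ^ (k₀ + i₀)))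
    (A : Finset (Ed n ℝ)) (hA : A ⊆ E')
    (hf0 : ∀ e ∈ A, ∀ i, eval (meet e.1 e.2) (f i) = 0)
    (hg0 : ∀ e ∈ A, ∀ i, eval (hatPt e.1 (mu e.1 e.2)) (g i) = 0)
    (hg0' : ∀ e ∈ A, ∀ i, eval (hatPt e.2 (mu e.2 e.1)) (g' i) = 0)
    (hfi : ∀ e ∈ A, LinearIndependent ℝ (fun i => grad (meet e.1 e.2) (f i)))
    (hgi : ∀ e ∈ A, LinearIndependent ℝ (fun i => fun b =>
      eval (hatPt e.1 (mu e.1 e.2)) (pderiv (Sum.inr b) (g i))))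
    (hgi' : ∀ e ∈ A, LinearIndependent ℝ (fun i => fun b =>
      eval (hatPt e.2 (mu e.2 e.1)) (pderiv (Sum.inr b) (g' i))))
    (Bd : Finset (Ed n ℝ)) (hBA : Bd ⊆ A)
    (hBd : ∀ e ∈ Bd, ∃ φ ∈ Vw ℝ (wh (Crd n) (Pt n) ((β ^ L) ^ k₀)) ((β ^ L) ^ (k₀ + 1)),
      (∀ e' ∈ A, germ (edgePt e'.1 e'.2) (sysZ f g g') = germ (edgePt e.1 e.2) (sysZ f g g') →
        eval (hatPt e'.1 (mu e'.1 e'.2)) φ = 0) ∧
      rename (j1 n) φ ∉ germ (edgePt e.1 e.2) (sysZ f g g')) :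
    β' * Bd.card ≤ E'.card := by
  classical
  by_contra hcon
  push Not at hcon
  have hγ : Fintype.card (Crd n) = 2 * n + 1 := by simp [Crd]; ring
  have hρ : Fintype.card (Pt n) = 2 * (n + 1) := by simp [Pt]; ring
  have hb1 : 1 < β ^ L := h.hb
  have hb : 1 ≤ β ^ L := hb1.le
  have hC1 : 1 ≤ C := by omega
  have hi₁ : i₁ ≤ K₀ := by have := h.i₁_le_K hC1; omega
  have hne : Bd.Nonempty := by
    rw [Finset.nonempty_iff_ne_empty]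
    rintro rfl
    simp at hcon
  obtain ⟨a, ha⟩ := hne
  have hcg : c₁ ≤ 2 * (n + 1) := by
    have := (hgi a (hBA ha)).fintype_card_le_finrank
    simpa [hρ] using this
  have hcg' : c₂ ≤ 2 * (n + 1) := by
    have := (hgi' a (hBA ha)).fintype_card_le_finrank
    simpa [hρ] using this
  obtain ⟨u, hu⟩ : ∃ u, c₂ + u = 2 * (n + 1) := ⟨2 * (n + 1) - c₂, by omega⟩
  have htight := h.tight
  have hp1 := h.pos1
  obtain ⟨e₁, he₁⟩ : ∃ e₁, Fintype.card (Crd n) + Fintype.card (Pt n) - (c₀ + c₁) = e₁ + 1 :=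
    ⟨Fintype.card (Crd n) + Fintype.card (Pt n) - (c₀ + c₁) - 1, by rw [hγ, hρ]; omega⟩
  have hj1 : ∀ e : Ed n ℝ, edgePt e.1 e.2 ∘ Sum.map id Sum.inl = hatPt e.1 (mu e.1 e.2) :=
    fun e => H930.edgePt_comp_j1 e.1 e.2
  have hj2 : ∀ e ∈ A, edgePt e.1 e.2 ∘ Sum.map id Sum.inr = hatPt e.2 (mu e.2 e.1) :=
    fun e he => H930.edgePt_comp_j2 (h.adj e (hA he)).1 (h.adj e (hA he)).2
  have hW : 0 < (β ^ L) ^ k₀ := Nat.pow_pos hb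
  have key := H701.gstar_Z1 (K := ℝ) A (fun e : Ed n ℝ => edgePt e.1 e.2) f g g'
    (fun e he i => hf0 e he i)
    (fun e he i => by rw [hj1]; exact hg0 e he i)
    (fun e he i => by rw [hj2 e he]; exact hg0' e he i)
    (fun e he => hfi e he)
    (fun e he => by rw [hj1]; exact hgi e he)
    (fun e he => by rw [hj2 e he]; exact hgi' e he)
    (W := (β ^ L) ^ k₀) hW
    (fun j => (β ^ L) ^ kap (k₀ + 1) (fun i => v (FI.F, i)) j)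
    (fun j => (β ^ L) ^ (k₀ + kap (i₀ + 1) (fun i => v (FI.H1 k₀, i)) (c₀ + j)))
    (fun _ => (β ^ L) ^ (k₀ + i₀))
    (fun j _ => Nat.one_le_pow _ _ hb) (fun j _ => Nat.one_le_pow _ _ hb)
    (fun j _ => Nat.one_le_pow _ _ hb) hf hg hg' (v := u) (e₁ := e₁) (by rw [hρ]; exact hu) he₁
    (T := (β ^ L) ^ (k₀ + 1)) Bd hBA
    (fun e he => by
      obtain ⟨φ, h1, h2, h3⟩ := hBd e he
      refine ⟨φ, h1, fun e' he' hcl => ?_, h3⟩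
      rw [hj1]
      exact h2 e' he' hcl)
    (T' := (β ^ L) ^ (k₀ + i₁)) (j := (β ^ L) ^ (i₁ - 1)) (by
      have hgeo := h.geo
      rw [← pow_add, show i₁ - 1 + (k₀ + 1) = k₀ + i₁ by omega]
      exact Nat.le_add_right _ _)
  have himg : (Bd.image fun e : Ed n ℝ => edgePt e.1 e.2 ∘ Sum.map id Sum.inl) = Bd.image xH1 := by
    refine Finset.image_congr fun e _ => ?_
    funext y
    rcases y with y | y <;> rfl
  rw [himg] at key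
  have hk := H307.isFam_H1 (K := ℝ) (n := n) (β ^ L) K₀ k₀ h.k₀_le
  exact gA_core h hC hq xH1 (fun e => rfl) (fun i => (FI.H1 k₀, i))
    (fun j hj => hk j (hj.trans hi₁)) (fun i h1 h2 => h.winH1 i h1 h2) hc₀ hc₁ hu he₁ Bd
    (hBA.trans hA) hcon (by rw [hγ, hρ]; unfold NN; ring) key

/-- **[G*] over the hat of `r`.** -/
theorem gstar_A2 (h : AData n k β C₁ L K₀ q C k₀ i₀ i₁ Wg E' v)
    (hC : 2 * (NN n * NN n) + 2 * n + 10 ≤ C) {β' : ℕ} (hq : 2 * β' ≤ q)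
    {c₀ c₁ c₂ : ℕ} (hc₀ : v (FI.F, k₀) = c₀) (hc₂ : c₀ + c₂ = v (FI.H2 k₀, i₀))
    (f : Fin c₀ → MvPolynomial (Crd n) ℝ) (g : Fin c₁ → MvPolynomial (Crd n ⊕ Pt n) ℝ)
    (g' : Fin c₂ → MvPolynomial (Crd n ⊕ Pt n) ℝ)
    (hf : ∀ j : Fin c₀, f j ∈ restrictTotalDegree (Crd n) ℝ
      ((β ^ L) ^ kap (k₀ + 1) (fun i => v (FI.F, i)) (j : ℕ)))
    (hg : ∀ j : Fin c₁, g j ∈ Vw ℝ (wh (Crd n) (Pt n) ((β ^ L) ^ k₀)) ((β ^ L) ^ (k₀ + i₀)))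
    (hg' : ∀ j : Fin c₂, g' j ∈ Vw ℝ (wh (Crd n) (Pt n) ((β ^ L) ^ k₀))
      ((β ^ L) ^ (k₀ + kap (i₀ + 1) (fun i => v (FI.H2 k₀, i)) (c₀ + j))))
    (A : Finset (Ed n ℝ)) (hA : A ⊆ E')
    (hf0 : ∀ e ∈ A, ∀ i, eval (meet e.1 e.2) (f i) = 0)
    (hg0 : ∀ e ∈ A, ∀ i, eval (hatPt e.1 (mu e.1 e.2)) (g i) = 0)
    (hg0' : ∀ e ∈ A, ∀ i, eval (hatPt e.2 (mu e.2 e.1)) (g' i) = 0)
    (hfi : ∀ e ∈ A, LinearIndependent ℝ (fun i => grad (meet e.1 e.2) (f i)))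
    (hgi : ∀ e ∈ A, LinearIndependent ℝ (fun i => fun b =>
      eval (hatPt e.1 (mu e.1 e.2)) (pderiv (Sum.inr b) (g i))))
    (hgi' : ∀ e ∈ A, LinearIndependent ℝ (fun i => fun b =>
      eval (hatPt e.2 (mu e.2 e.1)) (pderiv (Sum.inr b) (g' i))))
    (Bd : Finset (Ed n ℝ)) (hBA : Bd ⊆ A)
    (hBd : ∀ e ∈ Bd, ∃ φ ∈ Vw ℝ (wh (Crd n) (Pt n) ((β ^ L) ^ k₀)) ((β ^ L) ^ (k₀ + 1)),
      (∀ e' ∈ A, germ (edgePt e'.1 e'.2) (sysZ f g g') = germ (edgePt e.1 e.2) (sysZ f g g') →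
        eval (hatPt e'.2 (mu e'.2 e'.1)) φ = 0) ∧
      rename (j2 n) φ ∉ germ (edgePt e.1 e.2) (sysZ f g g')) :
    β' * Bd.card ≤ E'.card := by
  classical
  by_contra hcon
  push Not at hcon
  have hγ : Fintype.card (Crd n) = 2 * n + 1 := by simp [Crd]; ring
  have hρ : Fintype.card (Pt n) = 2 * (n + 1) := by simp [Pt]; ring
  have hb1 : 1 < β ^ L := h.hb
  have hb : 1 ≤ β ^ L := hb1.le
  have hC1 : 1 ≤ C := by omega
  have hi₁ : i₁ ≤ K₀ := by have := h.i₁_le_K hC1; omega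
  have hne : Bd.Nonempty := by
    rw [Finset.nonempty_iff_ne_empty]
    rintro rfl
    simp at hcon
  obtain ⟨a, ha⟩ := hne
  have hcg : c₁ ≤ 2 * (n + 1) := by
    have := (hgi a (hBA ha)).fintype_card_le_finrank
    simpa [hρ] using this
  have hcg' : c₂ ≤ 2 * (n + 1) := by
    have := (hgi' a (hBA ha)).fintype_card_le_finrank
    simpa [hρ] using this
  obtain ⟨u, hu⟩ : ∃ u, c₁ + u = 2 * (n + 1) := ⟨2 * (n + 1) - c₁, by omega⟩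
  have htight := h.tight
  have hp1 := h.pos1
  obtain ⟨e₁, he₁⟩ : ∃ e₁, Fintype.card (Crd n) + Fintype.card (Pt n) - (c₀ + c₂) = e₁ + 1 :=
    ⟨Fintype.card (Crd n) + Fintype.card (Pt n) - (c₀ + c₂) - 1, by rw [hγ, hρ]; omega⟩
  have hj1 : ∀ e : Ed n ℝ, edgePt e.1 e.2 ∘ Sum.map id Sum.inl = hatPt e.1 (mu e.1 e.2) :=
    fun e => H930.edgePt_comp_j1 e.1 e.2
  have hj2 : ∀ e ∈ A, edgePt e.1 e.2 ∘ Sum.map id Sum.inr = hatPt e.2 (mu e.2 e.1) :=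
    fun e he => H930.edgePt_comp_j2 (h.adj e (hA he)).1 (h.adj e (hA he)).2
  have hW : 0 < (β ^ L) ^ k₀ := Nat.pow_pos hb
  have key := H701.gstar_Z2 (K := ℝ) A (fun e : Ed n ℝ => edgePt e.1 e.2) f g g'
    (fun e he i => hf0 e he i)
    (fun e he i => by rw [hj1]; exact hg0 e he i)
    (fun e he i => by rw [hj2 e he]; exact hg0' e he i)
    (fun e he => hfi e he)
    (fun e he => by rw [hj1]; exact hgi e he)
    (fun e he => by rw [hj2 e he]; exact hgi' e he)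
    (W := (β ^ L) ^ k₀) hW
    (fun j => (β ^ L) ^ kap (k₀ + 1) (fun i => v (FI.F, i)) j)
    (fun _ => (β ^ L) ^ (k₀ + i₀))
    (fun j => (β ^ L) ^ (k₀ + kap (i₀ + 1) (fun i => v (FI.H2 k₀, i)) (c₀ + j)))
    (fun j _ => Nat.one_le_pow _ _ hb) (fun j _ => Nat.one_le_pow _ _ hb)
    (fun j _ => Nat.one_le_pow _ _ hb) hf hg hg' (v := u) (e₁ := e₁) (by rw [hρ]; exact hu) he₁
    (T := (β ^ L) ^ (k₀ + 1)) Bd hBA
    (fun e he => by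
      obtain ⟨φ, h1, h2, h3⟩ := hBd e he
      refine ⟨φ, h1, fun e' he' hcl => ?_, h3⟩
      rw [hj2 e' he']
      exact h2 e' he' hcl)
    (T' := (β ^ L) ^ (k₀ + i₁)) (j := (β ^ L) ^ (i₁ - 1)) (by
      have hgeo := h.geo
      rw [← pow_add, show i₁ - 1 + (k₀ + 1) = k₀ + i₁ by omega]
      exact Nat.le_add_right _ _)
  have himg : (Bd.image fun e : Ed n ℝ => edgePt e.1 e.2 ∘ Sum.map id Sum.inr) = Bd.image xH2 := by
    refine Finset.image_congr fun e _ => ?_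
    funext y
    rcases y with y | y <;> rfl
  rw [himg] at key
  have hk := H307.isFam_H2 (K := ℝ) (n := n) (β ^ L) K₀ k₀ h.k₀_le
  exact gA_core h hC hq xH2 (fun e => rfl) (fun i => (FI.H2 k₀, i))
    (fun j hj => hk j (hj.trans hi₁)) (fun i h1 h2 => h.winH2 i h1 h2) hc₀ hc₂ hu he₁ Bd
    (hBA.trans hA) hcon (by rw [hγ, hρ]; unfold NN; ring) key

end A

end Vale.Agent.P054.T2.H269
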