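import Vale.Agent.P054.T2.H701.GStarSys
import Vale.Agent.P054.T2.H580.Win

/-!
# P054 / T2: the numbers of [G*] (helper269)

`H701.gstar_sys` along the window of the families of section A, in the letters of
`H580.fam_good` / `H580.hat_good`: base `α` (weights `w`), vertical block `β` of weight `W`.
-/

open MvPolynomial Module Finset

namespace Vale.Agent.P054.T2.H269

open H580 (Vw rkF wh kap IsFilt)
open H930 (germ grad)
open H307 (pts mem_pts van mem_van)

/-- the constant of [G*] -/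
def Cg (N : ℕ) : ℕ := N.factorial * (2 ^ N * ((N + 1) ^ N * (N + 2) ^ N)) * 2 ^ N

theorem CS_le {e v N : ℕ} (h : e + 1 + v ≤ N) : H701.CS e v N * 2 ^ (e + 1) ≤ Cg N := by
  unfold H701.CS Cg
  refine Nat.mul_le_mul ?_ (Nat.pow_le_pow_right (by norm_num) (by omega))
  refine Nat.mul_le_mul (Nat.factorial_le (by omega)) ?_
  rw [mul_assoc]
  refine Nat.mul_le_mul (Nat.pow_le_pow_right (by norm_num) (by omega)) ?_
  refine Nat.mul_le_mul_right _ ?_
  exact (Nat.pow_le_pow_left (by omega) _).trans (Nat.pow_le_pow_right (by omega) h)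

section core

variable {K : Type*} [Field K] [CharZero K] {α β S ι : Type*}
variable [Fintype α] [Fintype β] [DecidableEq α] [DecidableEq β]

/-- **[G*], good_num form**, on the fibres of `p`. -/
theorem gstar_num [DecidableEq S] (p : ι → S) (A : Finset ι) (x : ι → α ⊕ β → K) {c m : ℕ}
    (F₀ : S → Fin c → MvPolynomial α K) (F : S → Fin (c + m) → MvPolynomial (α ⊕ β) K)
    (hleft : ∀ s i, F s (Fin.castAdd m i) = rename Sum.inl (F₀ s i))
    (hF : ∀ e ∈ A, ∀ i, eval (x e) (F (p e) i) = 0)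
    (hind₀ : ∀ e ∈ A, LinearIndependent K
      (fun i => grad (fun a => x e (Sum.inl a)) (F₀ (p e) i)))
    (hindr : ∀ e ∈ A, LinearIndependent K
      (fun (j : Fin m) (z : β) => eval (x e) (pderiv (Sum.inr z) (F (p e) (Fin.natAdd c j)))))
    (w : α → ℕ) {W : ℕ} (hw1 : ∀ a, w a ≠ 0) (hwW : ∀ a, w a ≤ W) (hW0 : 0 < W)
    (d : ℕ → ℕ) (hd1 : ∀ j < c, 1 ≤ d j) {D' : ℕ} (hD' : 1 ≤ D')
    (hd : ∀ s, ∀ i : Fin c, F₀ s i ∈ Vw K w (d i))
    (hd' : ∀ s, ∀ j : Fin m,
      F s (Fin.natAdd c j) ∈ Vw K (Sum.elim w (fun _ : β => W)) (W * D'))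
    {v : ℕ} (hv : m + v = Fintype.card β) (hc : c < Fintype.card α)
    {T T' J E Λ β' : ℕ} (hWT : W ≤ T')
    (hM : (∏ j ∈ range c, d j) * T' ^ (Fintype.card α - c) ≤ (∏ a, w a) * E)
    (hE : 1 ≤ E)
    (hL : ∀ B ⊆ A, A.card < β' * B.card → ∃ e ∈ B,
      E ≤ Λ * rkF (Vw K w) (pts (fun e => x e ∘ Sum.inl) (B.filter (fun a => p a = p e))) T')
    (hJT : J * T ≤ T' + W)
    (hJ : Cg (Fintype.card α + Fintype.card β) * D' ^ m * Λ < J)
    (Bd : Finset ι) (hBA : Bd ⊆ A)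
    (hBd : ∀ e ∈ Bd, ∃ φ ∈ Vw K w T,
      (∀ e' ∈ A, p e' = p e → germ (x e') (F (p e)) = germ (x e) (F (p e)) →
        eval (fun a => x e' (Sum.inl a)) φ = 0) ∧
      rename Sum.inl φ ∉ germ (x e) (F (p e))) :
    β' * Bd.card ≤ A.card := by
  classical
  by_contra hcon
  push Not at hcon
  obtain ⟨e₀, he₀, h0⟩ := hL Bd hBA hcon
  set s := p e₀ with hs
  set As := A.filter (fun a => p a = s) with hAs
  set Bs := Bd.filter (fun a => p a = s) with hBs
  obtain ⟨e₁, he₁⟩ : ∃ e₁, Fintype.card α - c = e₁ + 1 := ⟨Fintype.card α - c - 1, by omega⟩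
  -- degrees
  set dd : ℕ → ℕ := fun j => if j < c then d j else W * D' with hdd
  have hdd1 : ∀ j < c + m, 1 ≤ dd j := by
    intro j hj
    simp only [hdd]
    split_ifs with h
    · exact hd1 j h
    · exact Nat.mul_pos hW0 hD'
  have hddF : ∀ j : Fin (c + m), F s j ∈ Vw K (Sum.elim w (fun _ : β => W)) (dd j) := by
    intro j
    refine Fin.addCases (fun j => ?_) (fun j => ?_) j
    · have h1 : dd (Fin.castAdd m j : Fin (c + m)) = d j := by
        simp only [hdd, Fin.val_castAdd, if_pos j.2]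
      rw [h1, hleft]
      exact H580.rename_mem_Vw_of_weight (Sum.elim w (fun _ : β => W)) w Sum.inl
        (fun _ => rfl) (hd s j)
    · have h1 : dd (Fin.natAdd c j : Fin (c + m)) = W * D' := by
        simp only [hdd, Fin.val_natAdd]
        rw [if_neg (by omega)]
      rw [h1]
      exact hd' s j
  have key := H701.gstar_sys (K := K) As x (F₀ s) (F s) (hleft s)
    (fun e he i => by
      obtain ⟨h1, h2⟩ := Finset.mem_filter.1 he
      have := hF e h1 i
      rwa [h2] at this)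
    (fun e he => by
      obtain ⟨h1, h2⟩ := Finset.mem_filter.1 he
      have := hind₀ e h1
      rwa [h2] at this)
    (fun e he => by
      obtain ⟨h1, h2⟩ := Finset.mem_filter.1 he
      have := hindr e h1
      rwa [h2] at this)
    w hw1 hwW hW0 dd hdd1 hddF hv he₁ (T := T) Bs
    (Finset.filter_subset_filter _ hBA)
    (fun e he => by
      obtain ⟨h1, h2⟩ := Finset.mem_filter.1 he
      obtain ⟨φ, h3, h4, h5⟩ := hBd e h1
      rw [h2] at h4 h5
      refine ⟨φ, h3, fun e' he' h => ?_, h5⟩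
      obtain ⟨h6, h7⟩ := Finset.mem_filter.1 he'
      exact h4 e' h6 h7 h)
    hJT
  have hpts : pts (fun e => x e ∘ Sum.inl) Bs = Bs.image fun e a => x e (Sum.inl a) := by
    rw [H580.pts_eq]
    rfl
  rw [hpts] at h0
  set rk := rkF (Vw K w) (Bs.image fun e a => x e (Sum.inl a)) T' with hrk
  set N := Fintype.card α + Fintype.card β with hN
  have hprod : ∏ j ∈ range (c + m), dd j = (∏ j ∈ range c, d j) * (W * D') ^ m := by
    rw [Finset.prod_range_add]
    congr 1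
    · refine Finset.prod_congr rfl fun j hj => ?_
      simp only [hdd, if_pos (Finset.mem_range.1 hj)]
    · rw [Finset.prod_congr rfl (fun j _ => show dd (c + j) = W * D' by
        simp only [hdd]; rw [if_neg (by omega)]), Finset.prod_const, Finset.card_range]
  have hCS : H701.CS e₁ v N * 2 ^ (e₁ + 1) ≤ Cg N := CS_le (by omega)
  have hpos : 0 < (∏ a, w a) * W ^ Fintype.card β :=
    Nat.mul_pos (Finset.prod_pos fun a _ => Nat.pos_of_ne_zero (hw1 a)) (Nat.pow_pos hW0)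
  have h1 : ((∏ a, w a) * W ^ Fintype.card β) * (J * rk) ≤
      ((∏ a, w a) * W ^ Fintype.card β) * (Cg N * D' ^ m * E) := by
    calc ((∏ a, w a) * W ^ Fintype.card β) * (J * rk)
        ≤ H701.CS e₁ v N * ((∏ j ∈ range (c + m), dd j) * W ^ v) * (T' + W) ^ (e₁ + 1) := key
      _ ≤ H701.CS e₁ v N * ((∏ j ∈ range (c + m), dd j) * W ^ v) * (2 * T') ^ (e₁ + 1) :=
          Nat.mul_le_mul_left _ (Nat.pow_le_pow_left (by omega) _)
      _ = (H701.CS e₁ v N * 2 ^ (e₁ + 1)) * (D' ^ m * W ^ (m + v) *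
            ((∏ j ∈ range c, d j) * T' ^ (Fintype.card α - c))) := by
          rw [hprod, mul_pow, mul_pow, pow_add, he₁]; ring
      _ ≤ Cg N * (D' ^ m * W ^ (m + v) * ((∏ a, w a) * E)) :=
          Nat.mul_le_mul hCS (Nat.mul_le_mul_left _ hM)
      _ = _ := by rw [hv]; ring
  have h2 : J * rk ≤ Cg N * D' ^ m * E := Nat.le_of_mul_le_mul_left h1 hpos
  have h3 : Cg N * D' ^ m * E ≤ Cg N * D' ^ m * Λ * rk := by
    rw [mul_assoc (Cg N * D' ^ m)]
    exact Nat.mul_le_mul_left _ h0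
  have h4 : 0 < rk := by
    rcases Nat.eq_zero_or_pos rk with h | h
    · rw [h, mul_zero] at h0; omega
    · exact h
  have h5 : Cg N * D' ^ m * Λ * rk < J * rk := Nat.mul_lt_mul_of_pos_right hJ h4
  omega

end core

section fam

variable {K : Type*} [Field K] [CharZero K] {σ β S ι : Type*}
variable [Fintype σ] [Fintype β] [DecidableEq σ] [DecidableEq β]

/-- **[G*] along the window, families with weights `1`** (base `σ`, vertical block `β` of weight
`W ≤ b ^ k₁`).  Hypotheses of the base as in `H580.fam_good`. -/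
theorem fam_gstar [DecidableEq S] (p : ι → S) (A : Finset ι) (x : ι → σ ⊕ β → K)
    (b : ℕ) (hb : 1 ≤ b) (k₀ k₁ : ℕ) (hk : k₀ ≤ k₁) (v : ℕ → ℕ)
    (hv : ∀ k l : ℕ, k ≤ l → l ≤ k₀ → v k ≤ v l)
    (hconst : ∀ k, k₀ ≤ k → k < k₁ → v k = v k₀) (hvN : v k₀ < Fintype.card σ)
    {m u : ℕ} (hu : m + u = Fintype.card β)
    (F₀ : S → Fin (v k₀) → MvPolynomial σ K)
    (F : S → Fin (v k₀ + m) → MvPolynomial (σ ⊕ β) K)
    (hleft : ∀ s i, F s (Fin.castAdd m i) = rename Sum.inl (F₀ s i))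
    (hd : ∀ s, ∀ j : Fin (v k₀),
      F₀ s j ∈ restrictTotalDegree σ K (b ^ kap (k₀ + 1) v (j : ℕ)))
    {W D' : ℕ} (hW : 1 ≤ W) (hWT : W ≤ b ^ k₁) (hD' : 1 ≤ D')
    (hd' : ∀ s, ∀ j : Fin m,
      F s (Fin.natAdd (v k₀) j) ∈ Vw K (wh σ β W) (W * D'))
    (hF : ∀ e ∈ A, ∀ i, eval (x e) (F (p e) i) = 0)
    (hind₀ : ∀ e ∈ A, LinearIndependent K
      (fun i => grad (fun a => x e (Sum.inl a)) (F₀ (p e) i)))
    (hindr : ∀ e ∈ A, LinearIndependent K
      (fun (j : Fin m) (z : β) => eval (x e) (pderiv (Sum.inr z) (F (p e) (Fin.natAdd (v k₀) j)))))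
    {Λ β' : ℕ}
    (hL : ∀ B ⊆ A, A.card < β' * B.card →
      ∃ e ∈ B, b ^ (∑ k ∈ range k₁, (Fintype.card σ - v k)) ≤
        Λ * rkF (restrictTotalDegree σ K)
          (pts (fun e => x e ∘ Sum.inl) (B.filter (fun a => p a = p e))) (b ^ k₁))
    (k : ℕ) (hkk : k ≤ k₁)
    (hJ : Cg (Fintype.card σ + Fintype.card β) * D' ^ m * Λ < b ^ (k₁ - k))
    (Bd : Finset ι) (hBA : Bd ⊆ A)
    (hBd : ∀ e ∈ Bd, ∃ φ : MvPolynomial σ K, φ.totalDegree ≤ b ^ k ∧
      (∀ e' ∈ A, p e' = p e → germ (x e') (F (p e)) = germ (x e) (F (p e)) →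
        eval (fun a => x e' (Sum.inl a)) φ = 0) ∧
      rename Sum.inl φ ∉ germ (x e) (F (p e))) :
    β' * Bd.card ≤ A.card := by
  classical
  have hVw : Vw K (fun _ : σ => 1) = restrictTotalDegree σ K := funext H580.Vw_one_eq
  set N := Fintype.card σ with hN
  have s1 : (∑ j ∈ range (v k₀), kap (k₀ + 1) v j) + k₁ * (N - v k₀) =
      ∑ k ∈ range k₁, (N - v k) := by
    have := H580.sum_kap_window N (k₀ + 1) k₁ v (by omega)
      (fun k l hkl hl => hv k l hkl (by omega)) (by simpa using hvN.le)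
      (fun k h1 h2 => by simpa using hconst k (by simpa using h1) h2)
    simpa using this
  refine gstar_num p A x F₀ F hleft hF hind₀ hindr (fun _ => 1) (W := W) (fun _ => one_ne_zero)
    (fun _ => hW) hW (fun j => b ^ kap (k₀ + 1) v j) (fun j _ => Nat.one_le_pow _ _ hb) hD'
    (fun s i => by rw [hVw]; exact hd s i) hd' hu hvN (T := b ^ k) (T' := b ^ k₁)
    (J := b ^ (k₁ - k)) (E := b ^ (∑ k ∈ range k₁, (N - v k))) hWT ?_
    (Nat.one_le_pow _ _ hb) (fun B hB hc => by rw [hVw]; exact hL B hB hc) ?_ hJ Bd hBA ?_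
  · rw [Finset.prod_pow_eq_pow_sum, Finset.prod_const_one, one_mul, ← pow_mul, ← pow_add, s1]
  · rw [← pow_add, Nat.sub_add_cancel hkk]
    exact Nat.le_add_right _ _
  · intro e he
    obtain ⟨φ, h1, h2, h3⟩ := hBd e he
    refine ⟨φ, ?_, h2, h3⟩
    rw [hVw]
    exact (mem_restrictTotalDegree _ _ _).2 h1

end fam

section hats

variable {K : Type*} [Field K] [CharZero K] {γ ρ β S ι : Type*}
variable [Fintype γ] [Fintype ρ] [Fintype β] [DecidableEq γ] [DecidableEq ρ] [DecidableEq β]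

/-- **[G*] along the window of the hats**: base `γ ⊕ ρ` with the weights `wh γ ρ (b ^ k₀)`,
vertical block `β` of weight `b ^ k₀`.  Hypotheses of the base as in `H580.hat_good`. -/
theorem hat_gstar [DecidableEq S] (p : ι → S) (A : Finset ι) (x : ι → (γ ⊕ ρ) ⊕ β → K)
    (b : ℕ) (hb : 1 ≤ b) (k₀ i₀ i₁ : ℕ) (hi : i₀ ≤ i₁) (v v' : ℕ → ℕ)
    (hv : ∀ k l : ℕ, k ≤ l → l ≤ k₀ → v k ≤ v l)
    (hv' : ∀ k l : ℕ, k ≤ l → l ≤ i₀ → v' k ≤ v' l)
    (hconst : ∀ i, i₀ ≤ i → i < i₁ → v' i = v' i₀)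
    {c m : ℕ} (hc : v k₀ = c) (hm : v' i₀ = c + m) (hge : ∀ i ≤ i₀, c ≤ v' i)
    (hcγ : c ≤ Fintype.card γ) (hmN : c + m < Fintype.card γ + Fintype.card ρ)
    {m' u : ℕ} (hu : m' + u = Fintype.card β)
    (F₀ : S → Fin (c + m) → MvPolynomial (γ ⊕ ρ) K)
    (F : S → Fin (c + m + m') → MvPolynomial ((γ ⊕ ρ) ⊕ β) K)
    (hleft : ∀ s i, F s (Fin.castAdd m' i) = rename Sum.inl (F₀ s i))
    (hd : ∀ s, ∀ j : Fin c,
      F₀ s (Fin.castAdd m j) ∈ Vw K (wh γ ρ (b ^ k₀)) (b ^ kap (k₀ + 1) v j))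
    (hd' : ∀ s, ∀ j : Fin m,
      F₀ s (Fin.natAdd c j) ∈ Vw K (wh γ ρ (b ^ k₀)) (b ^ (k₀ + kap (i₀ + 1) v' (c + j))))
    {D' : ℕ} (hD' : 1 ≤ D')
    (hd'' : ∀ s, ∀ j : Fin m', F s (Fin.natAdd (c + m) j) ∈
      Vw K (Sum.elim (wh γ ρ (b ^ k₀)) (fun _ : β => b ^ k₀)) (b ^ k₀ * D'))
    (hF : ∀ e ∈ A, ∀ i, eval (x e) (F (p e) i) = 0)
    (hind₀ : ∀ e ∈ A, LinearIndependent K
      (fun i => grad (fun a => x e (Sum.inl a)) (F₀ (p e) i)))
    (hindr : ∀ e ∈ A, LinearIndependent K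
      (fun (j : Fin m') (z : β) =>
        eval (x e) (pderiv (Sum.inr z) (F (p e) (Fin.natAdd (c + m) j)))))
    {Λ β' : ℕ}
    (hL : ∀ B ⊆ A, A.card < β' * B.card →
      ∃ e ∈ B, b ^ (∑ k ∈ range k₀, (Fintype.card γ - v k) +
          ∑ i ∈ range i₁, (Fintype.card γ + Fintype.card ρ - v' i)) ≤
        Λ * rkF (Vw K (wh γ ρ (b ^ k₀)))
          (pts (fun e => x e ∘ Sum.inl) (B.filter (fun a => p a = p e))) (b ^ (k₀ + i₁)))
    (i : ℕ) (hii : i ≤ i₁)
    (hJ : Cg (Fintype.card γ + Fintype.card ρ + Fintype.card β) * D' ^ m' * Λ < b ^ (i₁ - i))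
    (Bd : Finset ι) (hBA : Bd ⊆ A)
    (hBd : ∀ e ∈ Bd, ∃ φ ∈ Vw K (wh γ ρ (b ^ k₀)) (b ^ (k₀ + i)),
      (∀ e' ∈ A, p e' = p e → germ (x e') (F (p e)) = germ (x e) (F (p e)) →
        eval (fun a => x e' (Sum.inl a)) φ = 0) ∧
      rename Sum.inl φ ∉ germ (x e) (F (p e))) :
    β' * Bd.card ≤ A.card := by
  classical
  set N := Fintype.card γ + Fintype.card ρ with hN
  have hbk : 1 ≤ b ^ k₀ := Nat.one_le_pow _ _ hb
  have hw : ∀ i, wh γ ρ (b ^ k₀) i ≠ 0 := by
    rintro (i | i)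
    · exact one_ne_zero
    · exact (Nat.pow_pos (n := k₀) hb).ne'
  have hwW : ∀ i, wh γ ρ (b ^ k₀) i ≤ b ^ k₀ := by
    rintro (i | i)
    · exact hbk
    · exact le_rfl
  -- the slopes
  have s1 : (∑ j ∈ range c, kap (k₀ + 1) v j) + k₀ * (Fintype.card γ - c) =
      ∑ k ∈ range k₀, (Fintype.card γ - v k) := by
    have := H580.sum_kap_window (Fintype.card γ) (k₀ + 1) k₀ v (le_refl _)
      (fun k l hkl hl => hv k l hkl (by omega)) (by simpa [hc] using hcγ)
      (fun k h1 h2 => by simp only [Nat.add_sub_cancel] at h1; omega)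
    simpa [hc] using this
  have s2 : (∑ j ∈ range m, kap (i₀ + 1) v' (c + j)) + i₁ * (N - (c + m)) =
      ∑ i ∈ range i₁, (N - v' i) := by
    have h3 := H580.sum_kap_window N (i₀ + 1) i₁ v' (by omega)
      (fun k l hkl hl => hv' k l hkl (by omega)) (by simpa [hm] using hmN.le)
      (fun k h1 h2 => by simpa using hconst k (by simpa using h1) h2)
    simp only [Nat.add_sub_cancel, hm] at h3
    rw [Finset.sum_range_add] at h3
    have h4 : ∑ j ∈ range c, kap (i₀ + 1) v' j = 0 := by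
      refine Finset.sum_eq_zero fun j hj => ?_
      refine H580.kap_eq_zero _ _ _ fun k hk => ?_
      have h5 := hge k (by omega)
      have h6 := Finset.mem_range.1 hj
      omega
    rw [h4, zero_add] at h3
    exact h3
  set dd : ℕ → ℕ := fun j =>
    if j < c then b ^ kap (k₀ + 1) v j else b ^ (k₀ + kap (i₀ + 1) v' j) with hdd
  have hprod : ∏ j ∈ range (c + m), dd j =
      b ^ ((∑ j ∈ range c, kap (k₀ + 1) v j) +
        (m * k₀ + ∑ j ∈ range m, kap (i₀ + 1) v' (c + j))) := by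
    rw [Finset.prod_range_add, pow_add]
    congr 1
    · rw [← Finset.prod_pow_eq_pow_sum]
      refine Finset.prod_congr rfl fun j hj => ?_
      simp only [hdd, if_pos (Finset.mem_range.1 hj)]
    · rw [Finset.prod_congr rfl (fun j _ => show dd (c + j) =
        b ^ (k₀ + kap (i₀ + 1) v' (c + j)) by
          simp only [hdd]; rw [if_neg (by omega)]), Finset.prod_pow_eq_pow_sum,
        Finset.sum_add_distrib, Finset.sum_const, Finset.card_range, smul_eq_mul]
  refine gstar_num p A x F₀ F hleft hF hind₀ hindr (wh γ ρ (b ^ k₀)) (W := b ^ k₀) hw hwW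
    hbk dd ?_ hD' ?_ hd'' hu (by rw [Fintype.card_sum]; exact hmN) (T := b ^ (k₀ + i))
    (T' := b ^ (k₀ + i₁)) (J := b ^ (i₁ - i))
    (E := b ^ (∑ k ∈ range k₀, (Fintype.card γ - v k) + ∑ i ∈ range i₁, (N - v' i)))
    (Nat.pow_le_pow_right hb (by omega)) ?_ (Nat.one_le_pow _ _ hb) hL ?_
    (by rw [Fintype.card_sum]; exact hJ) Bd hBA hBd
  · intro j _
    simp only [hdd]
    split_ifs
    · exact Nat.one_le_pow _ _ hb
    · exact Nat.one_le_pow _ _ hb
  · intro s j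
    refine Fin.addCases (fun j => ?_) (fun j => ?_) j
    · have h1 : dd (Fin.castAdd m j : Fin (c + m)) = b ^ kap (k₀ + 1) v j := by
        simp only [hdd, Fin.val_castAdd, if_pos j.2]
      rw [h1]
      exact hd s j
    · have h1 : dd (Fin.natAdd c j : Fin (c + m)) = b ^ (k₀ + kap (i₀ + 1) v' (c + j)) := by
        simp only [hdd, Fin.val_natAdd]
        rw [if_neg (by omega)]
      rw [h1]
      exact hd' s j
  · -- the exponents
    have hprodw : ∏ i, wh γ ρ (b ^ k₀) i = b ^ (k₀ * Fintype.card ρ) := by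
      rw [Fintype.prod_sum_type]
      simp [wh, Finset.prod_const, Finset.card_univ, pow_mul]
    rw [hprod, hprodw, Fintype.card_sum, ← hN, ← pow_mul, ← pow_add, ← pow_add]
    refine Nat.pow_le_pow_right hb (le_of_eq ?_)
    rw [← s1, ← s2]
    have h1 : m * k₀ + k₀ * (N - (c + m)) = k₀ * Fintype.card ρ + k₀ * (Fintype.card γ - c) := by
      rw [mul_comm m k₀, ← mul_add, ← mul_add]
      congr 1
      omega
    have h2 : (k₀ + i₁) * (N - (c + m)) = k₀ * (N - (c + m)) + i₁ * (N - (c + m)) := by ring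
    omega
  · have h1 : b ^ (i₁ - i) * b ^ (k₀ + i) = b ^ (k₀ + i₁) := by
      rw [← pow_add, show i₁ - i + (k₀ + i) = k₀ + i₁ by omega]
    rw [h1]
    exact Nat.le_add_right _ _

end hats

end Vale.Agent.P054.T2.H269
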