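import Vale.Agent.P054.T2.H269.GStarA
import Vale.Agent.P054.T2.H794.Leaves

/-!
# P054 / T2: the leaf [G*] = `H794.GStarS` (helper269, over 701's `gstar_Z1`, `gstar_Z2`)
-/

open MvPolynomial Module Finset

namespace Vale.Agent.P054.T2.H269

open H580 (Vw rkF wh kap IsFilt Par)
open H930 (germ grad sysZ Pt ptc edgePt hatPt j1 j2)
open H307 (pts mem_pts van mem_van fib IsFam IsUnif FI cA JA NN Ed xF xH1 xH2 wB)
open H794 (AData Cw)
open H686 (Crd mu meet Qf)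

/-- **(B-e) [G*].** -/
theorem gStarS (n : ℕ) : H794.GStarS n := by
  refine ⟨2 * (NN n * NN n) + 2 * n + 10, 128, ?_⟩
  intro C hC q hq L K₀
  refine ⟨0, ?_⟩
  intro β _ k C₁ k₀ i₀ i₁ Wg E' v h E1 E2 c₀ c₁ c₂ σ₁ σ₂ v₁ v₂ Z hZ hv₁ hv₂ hE
  have hb1 : 1 < β ^ L := h.hb
  have hb : 1 ≤ β ^ L := hb1.le
  have hC1 : 1 ≤ C := by omega
  have hi01 : i₀ ≤ i₁ := h.i₀_le hC1
  have hi₁ : i₁ ≤ K₀ := by have := h.i₁_le_K hC1; omega
  have hW : 1 ≤ (β ^ L) ^ k₀ := Nat.one_le_pow _ _ hb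
  have hVH := H580.isFilt_Vw (k := ℝ) (wh (Crd n) (Pt n) ((β ^ L) ^ k₀)) (H580.wh_ne_zero hW)
  have h2 : 2 * (β ^ L) ^ k₀ ≤ (β ^ L) ^ (k₀ + 1) := by
    rw [pow_succ, mul_comm]
    exact Nat.mul_le_mul_left _ hb1
  have hsubE : E2 ⊆ E' := Z.sub'.trans Z.sub
  have hfam1 : IsFam (cA n ℝ (β ^ L)) (JA K₀) (fun i => (FI.H1 k₀, i)) K₀ xH1 (fun _ => ())
      (Vw ℝ (wB ((β ^ L) ^ k₀))) ((β ^ L) ^ k₀) (β ^ L) :=
    H307.isFam_H1 (K := ℝ) (n := n) (β ^ L) K₀ k₀ h.k₀_le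
  have hfam2 : IsFam (cA n ℝ (β ^ L)) (JA K₀) (fun i => (FI.H2 k₀, i)) K₀ xH2 (fun _ => ())
      (Vw ℝ (wB ((β ^ L) ^ k₀))) ((β ^ L) ^ k₀) (β ^ L) :=
    H307.isFam_H2 (K := ℝ) (n := n) (β ^ L) K₀ k₀ h.k₀_le
  have hlev1 : ∀ j : Fin c₁, kap (i₀ + 1) (fun i => v (FI.H1 k₀, i)) (c₀ + j) ≤ i₀ := by
    intro j
    refine H580.kap_le_of_lt (i₀ + 1) (fun i => v (FI.H1 k₀, i))
      (fun a l hal hl => h.unif.fam_mono h.ne h.hβ1 hVH.mono hb hfam1 hal (by omega)) _ i₀ ?_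
    have h3 := j.2
    have h4 := hZ.hH1
    omega
  have hlev2 : ∀ j : Fin c₂, kap (i₀ + 1) (fun i => v (FI.H2 k₀, i)) (c₀ + j) ≤ i₀ := by
    intro j
    refine H580.kap_le_of_lt (i₀ + 1) (fun i => v (FI.H2 k₀, i))
      (fun a l hal hl => h.unif.fam_mono h.ne h.hβ1 hVH.mono hb hfam2 hal (by omega)) _ i₀ ?_
    have h3 := j.2
    have h4 := hZ.hH2
    omega
  have hxH2 : ∀ e ∈ E', hatPt e.2 (mu e.2 e.1) = xH2 e := by
    intro e he
    rw [← H930.edgePt_comp_j2 (h.adj e he).1 (h.adj e he).2]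
    funext y
    rcases y with y | y <;> rfl
  constructor
  · intro Bd hBE hBd
    refine gstar_A1 h hC (β' := 64) (by omega) hZ.hc₀.symm hZ.hH1 Z.f Z.h Z.h'
      (fun j => (mem_van.1 (hZ.f_van j)).1) (fun j => (mem_van.1 (hZ.h_van j)).1)
      (fun j => hVH.mono (Nat.pow_le_pow_right hb (Nat.add_le_add_left (hlev2 j) _))
        (mem_van.1 (hZ.h'_van j)).1)
      Bd (hBE.trans hsubE)
      (fun e he i => Z.f_zero i e (hsubE (hBE he))) (fun e he i => Z.h_zero i e (hsubE (hBE he)))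
      (fun e he i => Z.h'_zero i e (hsubE (hBE he)))
      (fun e he => Z.f_ind e (hBE he)) (fun e he => Z.h_ind e (hBE he))
      (fun e he => Z.h'_ind e (hBE he)) Bd (Finset.Subset.refl _) ?_
    intro e he
    obtain ⟨φ, h3, h4, h5⟩ := hBd e he
    exact ⟨φ, hVH.mono h2 h3, fun e' he' hcl => h4 e' he' hcl, h5⟩
  · intro Bd hBE hBd
    refine gstar_A2 h hC (β' := 64) (by omega) hZ.hc₀.symm hZ.hH2 Z.f Z.h Z.h'
      (fun j => (mem_van.1 (hZ.f_van j)).1)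
      (fun j => hVH.mono (Nat.pow_le_pow_right hb (Nat.add_le_add_left (hlev1 j) _))
        (mem_van.1 (hZ.h_van j)).1)
      (fun j => (mem_van.1 (hZ.h'_van j)).1)
      Bd (hBE.trans hsubE)
      (fun e he i => Z.f_zero i e (hsubE (hBE he))) (fun e he i => Z.h_zero i e (hsubE (hBE he)))
      (fun e he i => Z.h'_zero i e (hsubE (hBE he)))
      (fun e he => Z.f_ind e (hBE he)) (fun e he => Z.h_ind e (hBE he))
      (fun e he => Z.h'_ind e (hBE he)) Bd (Finset.Subset.refl _) ?_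
    intro e he
    obtain ⟨φ, h3, h4, h5⟩ := hBd e he
    refine ⟨φ, hVH.mono h2 h3, fun e' he' hcl => ?_, h5⟩
    rw [hxH2 e' (hsubE (hBE he'))]
    exact h4 e' he' hcl

end Vale.Agent.P054.T2.H269
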