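import Vale.Agent.P054.T2.H163.SepF
import Vale.Agent.P054.T2.H580.FiltDense
import Vale.Agent.P054.T2.H930.Jets

/-!
# P054 / T2: Hilbert functions of germ primes of one system

Upper bound for the intersection of finitely many germ primes of a system `F` (levels `d j` of a
filtration `V`), lower bound for one germ prime from additional equations, incomparability of
distinct germ primes of one system, additivity, number of distinct germ primes.
-/

set_option autoImplicit false

namespace Vale.Agent.P054.T2.H269

open MvPolynomial Finset Module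
open Vale.Agent.P054.T2

variable {k : Type*} [Field k] {σ : Type*} [Fintype σ] [DecidableEq σ]

omit [Fintype σ] [DecidableEq σ] in
/-- the germ depends only on the set of equations -/
theorem germ_congr_range {c c' : ℕ} (p : σ → k) {f : Fin c → MvPolynomial σ k}
    {f' : Fin c' → MvPolynomial σ k} (h : Set.range f = Set.range f') :
    H930.germ p f = H930.germ p f' := by
  unfold H930.germ H930.J
  rw [h]

/-- **(U) for finitely many germs of one system**, any filtration -/
theorem hilbF_germs_le {V : ℕ → Submodule k (MvPolynomial σ k)} (hV : H580.IsFilt V)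
    {ι : Type*} (G : Finset ι) (p : ι → σ → k) {c : ℕ} (f : Fin c → MvPolynomial σ k)
    (hf : ∀ i ∈ G, ∀ j, eval (p i) (f j) = 0)
    (hind : ∀ i ∈ G, LinearIndependent k (fun j => H930.grad (p i) (f j)))
    (d : Fin c → ℕ) (hd1 : ∀ j, 1 ≤ d j) (hd : ∀ j, f j ∈ V (d j)) (n T : ℕ) :
    (T + 1) ^ c * H580.hilbF V (⨅ i ∈ G, H930.germ (p i) f) n ≤
      (∏ j, d j) * finrank k (V (n + c * T)) := by
  classical
  let f' : ℕ → MvPolynomial σ k := fun j => if h : j < c then f ⟨j, h⟩ else 0
  let d' : ℕ → ℕ := fun j => if h : j < c then d ⟨j, h⟩ else 1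
  have hf' : ∀ (j : ℕ) (h : j < c), f' j = f ⟨j, h⟩ := fun j h => dif_pos h
  have hd' : ∀ (j : ℕ) (h : j < c), d' j = d ⟨j, h⟩ := fun j h => dif_pos h
  have h1 := hV.hilbF_primes G (fun j i => H930.germChain (p i) f j) c
    (fun j _ i hi => H930.germChain_isPrime (hf i hi) (hind i hi) j)
    (fun j _ i _ => H930.germChain_mono (p i) f (Nat.le_succ j))
    f' (fun j hj i _ => by rw [hf' j hj]; exact H930.mem_germChain_succ (p i) f ⟨j, hj⟩)
    (fun j hj i hi => by
      rw [hf' j hj]; exact H930.notMem_germChain (hf i hi) (hind i hi) ⟨j, hj⟩)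
    d' (fun j hj => by rw [hd' j hj]; exact hd1 _)
    (fun j hj => by rw [hf' j hj, hd' j hj]; exact hd _) n T
  have h2 : (⨅ i ∈ G, H930.germChain (p i) f c) = ⨅ i ∈ G, H930.germ (p i) f := by
    refine iInf_congr fun i => iInf_congr fun _ => H930.germChain_top (p i) f le_rfl
  have h3 : ∏ j ∈ range c, d' j = ∏ j, d j := by
    rw [Finset.prod_range]
    exact Finset.prod_congr rfl fun j _ => hd' j.1 j.2
  rw [h2, h3] at h1
  exact h1

/-- **lower bound for one germ prime** from extra equations which complete the system -/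
theorem le_hilbF_germ {V : ℕ → Submodule k (MvPolynomial σ k)} (hV : H580.IsFilt V)
    (p : σ → k) {c e : ℕ} (f : Fin c → MvPolynomial σ k) (x : Fin e → MvPolynomial σ k)
    (hf : ∀ j, eval p (f j) = 0) (hx : ∀ l, eval p (x l) = 0)
    (hind : LinearIndependent k (fun j => H930.grad p (Fin.append f x j)))
    (d : Fin e → ℕ) (hd : ∀ l, x l ∈ V (d l)) (a : Fin e → ℕ) :
    ∏ l, (a l + 1) ≤ H580.hilbF V (H930.germ p f) (∑ l, a l * d l) := by
  classical
  set H : Fin (c + e) → MvPolynomial σ k := Fin.append f x with hH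
  have hH0 : ∀ j, eval p (H j) = 0 := by
    intro j
    refine Fin.addCases (fun i => ?_) (fun i => ?_) j
    · rw [hH, Fin.append_left]; exact hf i
    · rw [hH, Fin.append_right]; exact hx i
  have hc : H930.germChain p H c = H930.germ p f := by
    unfold H930.germChain
    apply germ_congr_range
    ext y
    constructor
    · rintro ⟨m, rfl⟩
      have hm : m.1 < c := lt_of_lt_of_le m.2 (min_le_left _ _)
      refine ⟨⟨m.1, hm⟩, ?_⟩
      have : Fin.castLE (min_le_right c (c + e)) m = Fin.castAdd e ⟨m.1, hm⟩ := rfl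
      show f ⟨m.1, hm⟩ = H (Fin.castLE (min_le_right c (c + e)) m)
      rw [this, hH, Fin.append_left]
    · rintro ⟨m, rfl⟩
      refine ⟨⟨m.1, by have := m.2; omega⟩, ?_⟩
      show H (Fin.castAdd e m) = f m
      rw [hH, Fin.append_left]
  -- downward induction
  let a' : ℕ → ℕ := fun j => if h : j < e then a ⟨j, h⟩ else 0
  let d' : ℕ → ℕ := fun j => if h : j < e then d ⟨j, h⟩ else 0
  have ha' : ∀ (j : ℕ) (h : j < e), a' j = a ⟨j, h⟩ := fun j h => dif_pos h
  have hd' : ∀ (j : ℕ) (h : j < e), d' j = d ⟨j, h⟩ := fun j h => dif_pos h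
  have key : ∀ i, i ≤ e → ∏ l ∈ Finset.Ico (e - i) e, (a' l + 1) ≤
      H580.hilbF V (H930.germChain p H (c + (e - i))) (∑ l ∈ Finset.Ico (e - i) e, a' l * d' l) := by
    intro i
    induction i with
    | zero =>
      intro _
      simp only [Nat.sub_zero, Finset.Ico_self, Finset.prod_empty, Finset.sum_empty]
      have hprime := H930.germChain_isPrime hH0 hind (c + e)
      have hfin := hV.finite_map (H930.germChain p H (c + e)) 0
      rw [Nat.one_le_iff_ne_zero]
      intro h0
      have hbot : (V 0).map (Ideal.Quotient.mkₐ k (H930.germChain p H (c + e))).toLinearMap = ⊥ :=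
        Submodule.finrank_eq_zero.1 h0
      have h1 : Ideal.Quotient.mk (H930.germChain p H (c + e)) 1 ∈
          (V 0).map (Ideal.Quotient.mkₐ k (H930.germChain p H (c + e))).toLinearMap :=
        ⟨1, hV.one, rfl⟩
      rw [hbot, Submodule.mem_bot, Ideal.Quotient.eq_zero_iff_mem] at h1
      exact hprime.ne_top ((Ideal.eq_top_iff_one _).2 h1)
    | succ i ih =>
      intro hi
      have hi' : i ≤ e := by omega
      have h1 := ih hi'
      set m := e - (i + 1) with hm
      have hm1 : e - i = m + 1 := by omega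
      have hme : m < e := by omega
      rw [hm1] at h1
      have hIco : Finset.Ico m e = insert m (Finset.Ico (m + 1) e) :=
        (Finset.insert_Ico_add_one_left_eq_Ico hme).symm
      have hnot : m ∉ Finset.Ico (m + 1) e := by simp
      rw [hIco, Finset.prod_insert hnot, Finset.sum_insert hnot]
      have hstep := hV.hilbF_mul_le (I := H930.germChain p H (c + m))
        (J := H930.germChain p H (c + (m + 1)))
        (H930.germChain_mono p H (by omega)) (H (Fin.natAdd c ⟨m, hme⟩))
        (by
          have := H930.mem_germChain_succ p H (Fin.natAdd c ⟨m, hme⟩)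
          exact this)
        (by
          intro g hg
          have hprime := H930.germChain_isPrime hH0 hind (c + m)
          refine (hprime.mem_or_mem hg).resolve_left ?_
          exact H930.notMem_germChain hH0 hind (Fin.natAdd c ⟨m, hme⟩))
        (d' m) (by rw [hd' m hme, hH, Fin.append_right]; exact hd _)
        (∑ l ∈ Finset.Ico (m + 1) e, a' l * d' l) (a' m)
      calc (a' m + 1) * ∏ l ∈ Finset.Ico (m + 1) e, (a' l + 1)
          ≤ (a' m + 1) * H580.hilbF V (H930.germChain p H (c + (m + 1)))
              (∑ l ∈ Finset.Ico (m + 1) e, a' l * d' l) := Nat.mul_le_mul_left _ h1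
        _ ≤ _ := hstep
        _ = _ := by rw [add_comm (∑ l ∈ Finset.Ico (m + 1) e, a' l * d' l)]
  have h2 := key e le_rfl
  rw [Nat.sub_self, Nat.add_zero, hc] at h2
  have h3 : ∏ l ∈ Finset.Ico 0 e, (a' l + 1) = ∏ l, (a l + 1) := by
    rw [← Finset.range_eq_Ico, Finset.prod_range]
    exact Finset.prod_congr rfl fun j _ => by rw [ha' j.1 j.2]
  have h4 : ∑ l ∈ Finset.Ico 0 e, a' l * d' l = ∑ l, a l * d l := by
    rw [← Finset.range_eq_Ico, Finset.sum_range]
    exact Finset.sum_congr rfl fun j _ => by rw [ha' j.1 j.2, hd' j.1 j.2]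
  rw [h3, h4] at h2
  exact h2

/-- lower bound of the total-degree Hilbert function of a germ prime -/
theorem choose_le_hF_germ {c : ℕ} (p : σ → k) (f : Fin c → MvPolynomial σ k)
    (hf : ∀ i, eval p (f i) = 0) (hind : LinearIndependent k (fun i => H930.grad p (f i))) (n : ℕ) :
    (n + (Fintype.card σ - c)).choose (Fintype.card σ - c) ≤ H441.hF (H930.germ p f) n := by
  rw [← H930.finrank_quot_J p f hf hind n]
  have hfin := H930.finite_quot_J p f hf hind (n + 1)
  have h1 : ((restrictTotalDegree σ k n).map
      (Ideal.Quotient.mkₐ k (H930.J p f (n + 1))).toLinearMap) = ⊤ := by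
    rw [eq_top_iff]
    rintro y -
    obtain ⟨F, rfl⟩ := Ideal.Quotient.mk_surjective y
    obtain ⟨G, hG, hFG⟩ := H163.taylor p n F
    refine ⟨G, hG, ?_⟩
    show Ideal.Quotient.mk _ G = Ideal.Quotient.mk _ F
    symm
    rw [Ideal.Quotient.eq]
    exact H930.pow_le_J p f (n + 1) hFG
  have h2 : H441.hF (H930.J p f (n + 1)) n = finrank k (MvPolynomial σ k ⧸ H930.J p f (n + 1)) := by
    unfold H441.hF
    rw [h1, finrank_top]
  rw [← h2]
  exact H163.hF_anti (H930.germ_le_J p f (n + 1)) n

end Vale.Agent.P054.T2.H269
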