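import Vale.Agent.P054.T2.H269.GermHilb
import Vale.Agent.P054.T2.H580.UpperGerm

/-!
# P054 / T2: germ primes of one system: incomparability, additivity, limits; adapted linear forms
-/

set_option autoImplicit false
set_option linter.all false

namespace Vale.Agent.P054.T2.H269

open MvPolynomial Finset Module
open Vale.Agent.P054.T2

/-- letting `k` tend to infinity -/
theorem lim_pow {A B T a e : ℕ} (h : ∀ k : ℕ, A * (k + 1) ^ e ≤ B * ((k + 1) * T + a) ^ e) :
    A ≤ B * T ^ e := by
  have h1 : ∀ k : ℕ, (A : ℝ) ≤ B * ((T : ℝ) + a / (k + 1)) ^ e := by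
    intro k
    have h4 : (A : ℝ) * (k + 1 : ℝ) ^ e ≤ B * ((k + 1 : ℝ) * T + a) ^ e := by exact_mod_cast h k
    have h5 : ((k + 1 : ℝ) * T + a) = (k + 1 : ℝ) * ((T : ℝ) + a / (k + 1)) := by
      field_simp
    rw [h5, mul_pow] at h4
    have h6 : (0 : ℝ) < (k + 1 : ℝ) ^ e := by positivity
    refine le_of_mul_le_mul_right ?_ h6
    calc (A : ℝ) * (k + 1 : ℝ) ^ e ≤ _ := h4
      _ = _ := by ring
  have h2 : Filter.Tendsto (fun k : ℕ => (B : ℝ) * ((T : ℝ) + a / (k + 1)) ^ e)
      Filter.atTop (nhds ((B : ℝ) * ((T : ℝ) + 0) ^ e)) := by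
    refine Filter.Tendsto.const_mul _ (Filter.Tendsto.pow ?_ _)
    refine Filter.Tendsto.const_add _ ?_
    have := (tendsto_one_div_add_atTop_nhds_zero_nat (𝕜 := ℝ)).const_mul (a : ℝ)
    rw [mul_zero] at this
    refine this.congr fun k => ?_
    rw [mul_one_div]
  have h3 : (A : ℝ) ≤ (B : ℝ) * ((T : ℝ) + 0) ^ e :=
    ge_of_tendsto h2 (Filter.Eventually.of_forall h1)
  rw [add_zero] at h3
  exact_mod_cast h3

/-- the same, eventually -/
theorem lim_pow' {A B a e m₀ : ℕ} (h : ∀ m : ℕ, m₀ ≤ m → A * m ^ e ≤ B * (m + a) ^ e) :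
    A ≤ B := by
  have := lim_pow (A := A) (B := B) (T := 1) (a := a + m₀) (e := e) (fun k => by
    have h1 := h (k + 1 + m₀) (by omega)
    calc A * (k + 1) ^ e ≤ A * (k + 1 + m₀) ^ e :=
          Nat.mul_le_mul_left _ (Nat.pow_le_pow_left (by omega) _)
      _ ≤ B * (k + 1 + m₀ + a) ^ e := h1
      _ = _ := by congr 2; ring)
  simpa using this

section germs

variable {k : Type*} [Field k] {σ : Type*} [Fintype σ] [DecidableEq σ]

/-- upper bound for the total-degree Hilbert function of one germ prime -/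
theorem hF_germ_le {c : ℕ} (p : σ → k) (f : Fin c → MvPolynomial σ k)
    (hf : ∀ i, eval p (f i) = 0) (hind : LinearIndependent k (fun i => H930.grad p (f i))) :
    ∃ C : ℕ, ∀ n, H441.hF (H930.germ p f) n ≤ C * (n + 1) ^ (Fintype.card σ - c) := by
  classical
  have hc : c ≤ Fintype.card σ := by
    have := hind.fintype_card_le_finrank
    simpa using this
  refine ⟨(∏ j, ((f j).totalDegree + 1)) * (c + 1) ^ Fintype.card σ, fun n => ?_⟩
  have h1 := hilbF_germs_le (H580.isFilt_total (σ := σ) (k := k)) ({0} : Finset (Fin 1))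
    (fun _ => p) f (fun _ _ => hf) (fun _ _ => hind) (fun j => (f j).totalDegree + 1)
    (fun j => by omega) (fun j => by rw [mem_restrictTotalDegree]; omega) n n
  have h2 : (⨅ i ∈ ({0} : Finset (Fin 1)), H930.germ p f) = H930.germ p f := by simp
  rw [h2] at h1
  have h3 : finrank k (restrictTotalDegree σ k (n + c * n)) ≤
      ((c + 1) * (n + 1)) ^ Fintype.card σ :=
    (H580.finrank_restrict_le _).trans (Nat.pow_le_pow_left (by nlinarith) _)
  have h4 : (n + 1) ^ c * H441.hF (H930.germ p f) n ≤ (n + 1) ^ c *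
      ((∏ j, ((f j).totalDegree + 1)) * (c + 1) ^ Fintype.card σ *
        (n + 1) ^ (Fintype.card σ - c)) := by
    calc (n + 1) ^ c * H441.hF (H930.germ p f) n
        ≤ (∏ j, ((f j).totalDegree + 1)) * ((c + 1) * (n + 1)) ^ Fintype.card σ :=
          h1.trans (Nat.mul_le_mul_left _ h3)
      _ = (∏ j, ((f j).totalDegree + 1)) * ((c + 1) ^ Fintype.card σ *
          ((n + 1) ^ c * (n + 1) ^ (Fintype.card σ - c))) := by
          rw [mul_pow, ← pow_add, Nat.add_sub_cancel' hc]
      _ = _ := by ring
  exact Nat.le_of_mul_le_mul_left h4 (by positivity)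

/-- **incomparability** of germ primes of one system -/
theorem germ_incomp {c : ℕ} {p p' : σ → k} {f : Fin c → MvPolynomial σ k}
    (hf : ∀ i, eval p (f i) = 0) (hind : LinearIndependent k (fun i => H930.grad p (f i)))
    (hf' : ∀ i, eval p' (f i) = 0) (hind' : LinearIndependent k (fun i => H930.grad p' (f i)))
    (hle : H930.germ p f ≤ H930.germ p' f) : H930.germ p f = H930.germ p' f := by
  by_contra hne
  obtain ⟨C, hC⟩ := hF_germ_le p f hf hind
  exact H163.not_lt (H930.germ_isPrime hf hind) hC (choose_le_hF_germ p' f hf' hind')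
    (lt_of_le_of_ne hle hne)

/-- **additivity** over the distinct germ primes of one system -/
theorem germs_additive {V : ℕ → Submodule k (MvPolynomial σ k)} (hV : H580.IsFilt V) {w₀ : ℕ}
    (hX : ∀ i, (X i : MvPolynomial σ k) ∈ V w₀) [DecidableEq (Ideal (MvPolynomial σ k))]
    {ι : Type*} (G : Finset ι) (p : ι → σ → k) {c : ℕ} (f : Fin c → MvPolynomial σ k)
    (hf : ∀ i ∈ G, ∀ j, eval (p i) (f j) = 0)
    (hind : ∀ i ∈ G, LinearIndependent k (fun j => H930.grad (p i) (f j))) :
    ∃ a : ℕ, ∀ m, ∑ Q ∈ G.image (fun i => H930.germ (p i) f), H580.hilbF V Q m ≤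
      H580.hilbF V (⨅ i ∈ G, H930.germ (p i) f) (m + a) := by
  classical
  set Q := G.image (fun i => H930.germ (p i) f) with hQ
  have hQA : ∀ q ∈ Q, ∃ i ∈ G, H930.germ (p i) f = q := fun q hq => Finset.mem_image.1 hq
  obtain ⟨a, ha⟩ := hV.additive hX (fun q : Q => (q : Ideal (MvPolynomial σ k)))
    (fun q => by
      obtain ⟨i, hi, hiq⟩ := hQA q q.2
      rw [← hiq]
      exact H930.germ_isPrime (hf i hi) (hind i hi))
    (fun q q' hne hle => by
      obtain ⟨i, hi, hiq⟩ := hQA q q.2
      obtain ⟨j, hj, hjq⟩ := hQA q' q'.2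
      apply hne
      apply Subtype.ext
      rw [← hiq, ← hjq]
      apply germ_incomp (hf i hi) (hind i hi) (hf j hj) (hind j hj)
      rw [hiq, hjq]
      exact hle)
  refine ⟨a, fun m => ?_⟩
  have hinf : (⨅ i ∈ G, H930.germ (p i) f) ≤ ⨅ q : Q, (q : Ideal (MvPolynomial σ k)) := by
    refine le_iInf fun q => ?_
    obtain ⟨i, hi, hiq⟩ := hQA q q.2
    rw [← hiq]
    exact iInf₂_le i hi
  rw [← Finset.sum_coe_sort]
  exact (ha m).trans (hV.hilbF_anti hinf _)

end germs

section forms

variable {k : Type*} [Field k] {τ : Type*} [Fintype τ] [DecidableEq τ]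

/-- complete independent vectors by further vectors -/
theorem exists_complete {c e : ℕ} (G : Fin c → τ → k) (hG : LinearIndependent k G)
    (he : c + e = Fintype.card τ) :
    ∃ a : Fin e → τ → k, LinearIndependent k (Sum.elim G a) := by
  classical
  obtain ⟨e', he', b, hb1, hb2⟩ := H930.exists_basis G hG
  obtain rfl : e' = e := by omega
  refine ⟨fun l j => b.coord (Sum.inl l) (Pi.single j 1), ?_⟩
  have hco : ∀ (l : Fin e') (w : τ → k), ∑ j, b.coord (Sum.inl l) (Pi.single j 1) * w j =
      b.coord (Sum.inl l) w := by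
    intro l w
    conv_rhs => rw [← Finset.univ_sum_single w, map_sum]
    refine Finset.sum_congr rfl fun j _ => ?_
    have : (Pi.single j (w j) : τ → k) = w j • (Pi.single j 1 : τ → k) := by
      rw [← Pi.single_smul', smul_eq_mul, mul_one]
    rw [this, map_smul, smul_eq_mul, mul_comm]
  rw [Fintype.linearIndependent_iff]
  intro g hg
  rw [Fintype.sum_sum_type] at hg
  simp only [Sum.elim_inl, Sum.elim_inr] at hg
  have hpair : ∀ w : τ → k, ∑ i, g (Sum.inl i) * (∑ j, G i j * w j) +
      ∑ l, g (Sum.inr l) * b.coord (Sum.inl l) w = 0 := by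
    intro w
    have h1 : ∑ j, (∑ i, g (Sum.inl i) • G i + ∑ l, g (Sum.inr l) •
        (fun j => b.coord (Sum.inl l) (Pi.single j 1) : τ → k)) j * w j = 0 := by
      rw [hg]; simp
    simp only [Pi.add_apply, Finset.sum_apply, Pi.smul_apply, smul_eq_mul, add_mul,
      Finset.sum_add_distrib, Finset.sum_mul] at h1
    rw [Finset.sum_comm, Finset.sum_comm (s := (Finset.univ : Finset τ))
      (t := (Finset.univ : Finset (Fin e')))] at h1
    rw [← h1]
    congr 1
    · refine Finset.sum_congr rfl fun i _ => ?_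
      rw [Finset.mul_sum]
      exact Finset.sum_congr rfl fun j _ => by ring
    · refine Finset.sum_congr rfl fun l _ => ?_
      rw [← hco l w, Finset.mul_sum]
      exact Finset.sum_congr rfl fun j _ => by ring
  intro i
  rcases i with i | l
  · have h1 := hpair (b (Sum.inr i))
    have h2 : ∑ i', g (Sum.inl i') * (∑ j, G i' j * b (Sum.inr i) j) = g (Sum.inl i) := by
      simp only [hb2, mul_ite, mul_one, mul_zero]
      simp
    have h3 : ∑ l, g (Sum.inr l) * b.coord (Sum.inl l) (b (Sum.inr i)) = 0 := by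
      refine Finset.sum_eq_zero fun l _ => ?_
      simp
    rw [h2, h3, add_zero] at h1
    exact h1
  · have h1 := hpair (b (Sum.inl l))
    have h2 : ∑ i', g (Sum.inl i') * (∑ j, G i' j * b (Sum.inl l) j) = 0 := by
      refine Finset.sum_eq_zero fun i' _ => ?_
      rw [hb1, mul_zero]
    have h3 : ∑ l', g (Sum.inr l') * b.coord (Sum.inl l') (b (Sum.inl l)) = g (Sum.inr l) := by
      have : ∀ l', b.coord (Sum.inl l') (b (Sum.inl l)) = if l' = l then 1 else 0 := by
        intro l'
        simp [Finsupp.single_apply, eq_comm]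
      simp only [this, mul_ite, mul_one, mul_zero]
      simp
    rw [h2, h3, zero_add] at h1
    exact h1

/-- the affine form with gradient `a` vanishing at `p` -/
noncomputable def lform (p : τ → k) (a : τ → k) : MvPolynomial τ k :=
  ∑ j, C (a j) * (X j - C (p j))

theorem eval_lform (p a : τ → k) : eval p (lform p a) = 0 := by
  unfold lform
  simp

theorem grad_lform (p a q : τ → k) : (fun j => eval q (pderiv j (lform p a))) = a := by
  funext j
  unfold lform
  rw [map_sum, map_sum]
  simp only [Derivation.leibniz, pderiv_C, map_sub, pderiv_X, smul_eq_mul, map_add, map_mul,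
    eval_C, mul_zero, add_zero, sub_zero]
  simp [Pi.single_apply]

end forms

/-- block triangular families are independent -/
theorem linInd_block {k : Type*} [Field k] {α β I J : Type*} [Fintype I] [Fintype J]
    (A : I → α → k) (B : J → β → k) (R : J → α → k)
    (hA : LinearIndependent k A) (hB : LinearIndependent k B) :
    LinearIndependent k (Sum.elim (fun i => (Sum.elim (A i) 0 : α ⊕ β → k))
      (fun j => (Sum.elim (R j) (B j) : α ⊕ β → k))) := by
  rw [Fintype.linearIndependent_iff] at hA hB ⊢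
  intro g hg
  rw [Fintype.sum_sum_type] at hg
  simp only [Sum.elim_inl, Sum.elim_inr] at hg
  have h1 : ∀ j, g (Sum.inr j) = 0 := by
    apply hB (fun j => g (Sum.inr j))
    funext z
    have := congrFun hg (Sum.inr z)
    simpa [Finset.sum_apply] using this
  have h2 : ∀ i, g (Sum.inl i) = 0 := by
    apply hA (fun i => g (Sum.inl i))
    funext z
    have := congrFun hg (Sum.inl z)
    simpa [Finset.sum_apply, h1] using this
  intro i
  rcases i with i | j
  · exact h2 i
  · exact h1 j

end Vale.Agent.P054.T2.H269
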