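import Vale.Agent.P054.T2.H269.SideC
import Vale.Agent.P054.T2.H580.Good
import Vale.Agent.P054.T2.H580.Hat

/-!
# P054 / T2, row [GOODL]: [GOOD] for the hat-leaf germs when `v = 0`
-/

set_option autoImplicit false
set_option linter.all false

namespace Vale.Agent.P054.T2.H269

open MvPolynomial Finset Module
open Vale.Agent.P054.T2 Vale.Agent.P054.T2.SecC
open Vale.Agent.P054.T2.H686 (mu meet Qf Crd leaf)
open Vale.Agent.P054.T2.H580 (Vw hilbF rkF IsFilt)
open Vale.Agent.P054.T2.H930 (germ mx grad J)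

variable {n : ℕ} {A : Finset (ZZ n × ZZ n)} {W D σ v : ℕ} (S : Side n A W D σ v)

/-- **sharp weighted upper bound**: `γ i` the degrees of the leaf equations of `s` -/
theorem side_upγ (s : ZZ n) (G : Finset (ZZ n × ZZ n)) (hGA : G ⊆ A) (hGs : ∀ e ∈ G, e.1 = s)
    (γ : Fin (n - σ) → ℕ) (hγ1 : ∀ i, 1 ≤ γ i) (hγ : ∀ i, (S.f s i).totalDegree ≤ γ i)
    (m : ℕ) : W ^ v * hilbF (Vw ℝ (wt W)) (⨅ e ∈ G, S.P e) m ≤
      Cn n * D ^ (2 * (n + 1)) * (∏ i, γ i) * (m + W) ^ (σ + v) := by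
  classical
  have hW := S.hW
  have hD := S.hD
  have hσ := S.hσ
  have hv := S.hv
  set c : ℕ := (n - σ) + (2 * (n + 1) - v) with hc
  have hcn : c + (σ + v) = n + 2 * (n + 1) := by omega
  have hV := isFilt_wt (n := n) hW
  have hInf : (⨅ e ∈ G, S.P e) = ⨅ e ∈ G, germ (hx s e.2) (S.F s) := by
    refine iInf_congr fun e => iInf_congr fun he => P_eq S (hGs e he)
  have h1 := hilbF_germs_le hV G (fun e => hx s e.2) (S.F s)
    (fun e he j => by have := S.hzero e (hGA he) j; rwa [hGs e he] at this)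
    (fun e he => by have := S.hind e (hGA he); rwa [hGs e he] at this)
    (Fin.append γ (fun _ => D * W))
    (fun j => by
      refine Fin.addCases (fun i => ?_) (fun i => ?_) j
      · rw [Fin.append_left]; exact hγ1 i
      · rw [Fin.append_right]; exact Nat.mul_pos hD hW)
    (fun j => by
      refine Fin.addCases (fun i => ?_) (fun i => ?_) j
      · rw [Fin.append_left, S.hleft]; exact rename_inl_mem (hγ i)
      · rw [Fin.append_right]; exact S.hFdeg s i)
    m (m + W - 1)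
  rw [← hInf] at h1
  set Γ : ℕ := ∏ i, γ i with hΓ
  have hprod : ∏ j, (Fin.append γ (fun _ => D * W) :
      Fin ((n - σ) + (2 * (n + 1) - v)) → ℕ) j = Γ * (D * W) ^ (2 * (n + 1) - v) := by
    rw [Fin.prod_univ_add]
    simp [Fin.append_left, Fin.append_right, hΓ]
  rw [hprod] at h1
  have hT : m + W - 1 + 1 = m + W := by omega
  rw [hT] at h1
  set N : ℕ := m + c * (m + W - 1) with hN
  have hKn : c + 1 ≤ 3 * n + 3 := by omega
  -- dimension of the weighted space
  have h2 : finrank ℝ (Vw ℝ (wt (n := n) W) N) ≤ (N + 1) ^ n * (N / W + 1) ^ (2 * (n + 1)) := by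
    refine (H580.finrank_Vw_le _ (wt_ne hW) N).trans (le_of_eq ?_)
    rw [Fintype.prod_sum_type, Fintype.prod_sum_type]
    simp only [wt, Sum.elim_inl, Sum.elim_inr, Nat.div_one, Finset.prod_const, Finset.card_univ,
      Fintype.card_fin]
    ring
  have hN1 : N + 1 ≤ (3 * n + 3) * (m + W) := by
    have : N + 1 ≤ (c + 1) * (m + W) := by
      have h3 : c * (m + W - 1) ≤ c * (m + W) := Nat.mul_le_mul_left _ (by omega)
      have h4 : (c + 1) * (m + W) = c * (m + W) + (m + W) := by ring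
      omega
    exact this.trans (Nat.mul_le_mul_right _ hKn)
  have hN2 : W * (N / W + 1) ≤ (3 * n + 3) * (m + W) := by
    have h3 : W * (N / W) ≤ N := Nat.mul_div_le N W
    have h5 : W * (N / W + 1) ≤ N + W := by
      have : W * (N / W + 1) = W * (N / W) + W := by ring
      omega
    have : N + W ≤ (c + 1) * (m + W) := by
      rcases Nat.eq_zero_or_pos c with h0 | h0
      · have : N = m := by rw [hN, h0]; ring
        rw [this, h0]; omega
      · have h6 : c * (m + W - 1) + c = c * (m + W) := by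
          have : m + W - 1 + 1 = m + W := hT
          calc c * (m + W - 1) + c = c * (m + W - 1 + 1) := by ring
            _ = _ := by rw [this]
        have h4 : (c + 1) * (m + W) = c * (m + W) + (m + W) := by ring
        omega
    exact h5.trans (this.trans (Nat.mul_le_mul_right _ hKn))
  set H : ℕ := hilbF (Vw ℝ (wt W)) (⨅ e ∈ G, S.P e) m with hH
  set X : ℕ := m + W with hX
  have hXpos : 0 < X := by omega
  have h3 : W ^ (2 * (n + 1)) * (X ^ c * H) ≤
      Γ * (D * W) ^ (2 * (n + 1) - v) * ((3 * n + 3) * X) ^ (n + 2 * (n + 1)) := by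
    calc W ^ (2 * (n + 1)) * (X ^ c * H)
        ≤ W ^ (2 * (n + 1)) * (Γ * (D * W) ^ (2 * (n + 1) - v) *
          ((N + 1) ^ n * (N / W + 1) ^ (2 * (n + 1)))) :=
          Nat.mul_le_mul_left _ (h1.trans (Nat.mul_le_mul_left _ h2))
      _ = Γ * (D * W) ^ (2 * (n + 1) - v) *
          ((N + 1) ^ n * (W * (N / W + 1)) ^ (2 * (n + 1))) := by
          rw [mul_pow W (N / W + 1)]; ring
      _ ≤ Γ * (D * W) ^ (2 * (n + 1) - v) *
          (((3 * n + 3) * X) ^ n * ((3 * n + 3) * X) ^ (2 * (n + 1))) := by gcongr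
      _ = _ := by rw [← pow_add]
  have h4 : (W ^ (2 * (n + 1) - v) * X ^ c) * (W ^ v * H) ≤
      (W ^ (2 * (n + 1) - v) * X ^ c) *
        (Cn n * D ^ (2 * (n + 1)) * Γ * X ^ (σ + v)) := by
    calc (W ^ (2 * (n + 1) - v) * X ^ c) * (W ^ v * H)
        = W ^ (2 * (n + 1)) * (X ^ c * H) := by
          have : W ^ (2 * (n + 1)) = W ^ (2 * (n + 1) - v) * W ^ v := by
            rw [← pow_add]; congr 1; omega
          rw [this]; ring
      _ ≤ _ := h3
      _ = Γ * (D ^ (2 * (n + 1) - v) * W ^ (2 * (n + 1) - v)) *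
          ((3 * n + 3) ^ (n + 2 * (n + 1)) * (X ^ c * X ^ (σ + v))) := by
          rw [mul_pow D W, mul_pow (3 * n + 3) X, ← pow_add X, hcn]
      _ ≤ Γ * (D ^ (2 * (n + 1)) * W ^ (2 * (n + 1) - v)) *
          ((3 * n + 3) ^ (n + 2 * (n + 1)) * (X ^ c * X ^ (σ + v))) := by
          gcongr
          omega
      _ = _ := by
          have : 3 * n + 2 = n + 2 * (n + 1) := by ring
          unfold Cn
          rw [this]; ring
  have hpos : 0 < W ^ (2 * (n + 1) - v) * X ^ c := by positivity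
  exact Nat.le_of_mul_le_mul_left h4 hpos

/-- rank of the `u`-points is at most the rank of the points `(u, r)` -/
theorem rk_mu_le (hW : 1 ≤ W) (B : Finset (ZZ n × ZZ n)) (T : ℕ) :
    H441.rkY (B.image fun e => mu e.1 e.2) T ≤
      rkF (Vw ℝ (wt W)) (B.image fun e => hx e.1 e.2) T := by
  classical
  have h := H580.rkF_proj_le (Vw ℝ (wt (n := n) W)) (restrictTotalDegree (Fin n) ℝ) Sum.inl
    (n := T) (n' := T) ((isFilt_wt hW).fin T)
    (fun F hF => rename_inl_mem (by rwa [mem_restrictTotalDegree] at hF))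
    (fun e : ZZ n × ZZ n => hx e.1 e.2) B
  have h2 : (fun e : ZZ n × ZZ n => hx e.1 e.2 ∘ Sum.inl) = fun e => mu e.1 e.2 := by
    funext e
    unfold SecC.hx
    rfl
  rw [h2] at h
  exact h

/-- **[GOODL]**: `E` the uniform set of edges, `A ⊆ E` the edges where the systems are
independent, `v = 0`.  The lower bound is the one of the leaf family in the variables `u`. -/
theorem goodL (S : Side n A W D σ 0) (E : Finset (ZZ n × ZZ n)) (hAE : A ⊆ E)
    (γ : Fin (n - σ) → ℕ) (hγ1 : ∀ i, 1 ≤ γ i) (hγ : ∀ s i, (S.f s i).totalDegree ≤ γ i)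
    {T T' J Λ β' : ℕ}
    (hlow : ∀ B ⊆ E, E.card < β' * B.card → ∃ e ∈ B, (∏ i, γ i) * T' ^ σ ≤
      Λ * H441.rkY ((B.filter fun a => a.1 = e.1).image fun a => mu a.1 a.2) T')
    (hWT : W ≤ T') (hJT : J * T ≤ T')
    (hJ : Cn n * 3 ^ n * D ^ (2 * (n + 1)) * Λ < J)
    (Y : Finset (ZZ n × ZZ n)) (hYA : Y ⊆ A)
    (hY : ∀ e ∈ Y, ∃ F ∈ Vw ℝ (wt W) T,
      (∀ a ∈ E, a.1 = e.1 → eval (hx a.1 a.2) F = 0) ∧ F ∉ S.P e) :
    β' * Y.card ≤ E.card := by
  classical
  by_contra hcon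
  push Not at hcon
  obtain ⟨e, he, hle⟩ := hlow Y (hYA.trans hAE) hcon
  set s := e.1 with hs
  set Ys := Y.filter fun a => a.1 = s with hYs
  have hYsA : Ys ⊆ A := (Finset.filter_subset _ _).trans hYA
  have hYss : ∀ a ∈ Ys, a.1 = s := fun a ha => (Finset.mem_filter.1 ha).2
  have hV := isFilt_wt (n := n) S.hW
  have h1 := hV.good_fibre (fun a : ZZ n × ZZ n => hx s a.2) Ys (S.F s)
    (fun a ha j => by have := S.hzero a (hYsA ha) j; rwa [hYss a ha] at this)
    (fun a ha => by have := S.hind a (hYsA ha); rwa [hYss a ha] at this)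
    (T := T) Ys (Finset.Subset.refl _)
    (fun a ha => by
      obtain ⟨haY, has⟩ := Finset.mem_filter.1 ha
      obtain ⟨F, hF1, hF2, hF3⟩ := hY a haY
      refine ⟨F, hF1, ?_, ?_⟩
      · intro a' ha'
        obtain ⟨haY', has'⟩ := Finset.mem_filter.1 ha'
        have := hF2 a' (hAE (hYA haY')) (by rw [has', has])
        rwa [has'] at this
      · rwa [P_eq S has] at hF3) T' J
  have hInf : (⨅ a ∈ Ys, germ (hx s a.2) (S.F s)) = ⨅ a ∈ Ys, S.P a := by
    refine iInf_congr fun a => iInf_congr fun ha => (P_eq S (hYss a ha)).symm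
  have him : (Ys.image fun a : ZZ n × ZZ n => hx s a.2) = Ys.image fun a => hx a.1 a.2 := by
    refine Finset.image_congr fun a ha => ?_
    have := hYss a ha
    simp only [this]
  rw [hInf, him] at h1
  have h2 := side_upγ S s Ys hYsA hYss γ hγ1 (hγ s) (T' + J * T)
  rw [pow_zero, one_mul, Nat.add_zero] at h2
  have h3 := rk_mu_le S.hW Ys T'
  set R := H441.rkY (Ys.image fun a => mu a.1 a.2) T' with hR
  have h4 : J * R ≤ Cn n * D ^ (2 * (n + 1)) * (∏ i, γ i) * (T' + J * T + W) ^ σ := by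
    calc J * R ≤ J * rkF (Vw ℝ (wt W)) (Ys.image fun a => hx a.1 a.2) T' :=
          Nat.mul_le_mul_left _ h3
      _ ≤ hilbF (Vw ℝ (wt W)) (⨅ a ∈ Ys, S.P a) (T' + J * T) := by omega
      _ ≤ _ := h2
  have h5 : (T' + J * T + W) ^ σ ≤ 3 ^ n * T' ^ σ := by
    calc (T' + J * T + W) ^ σ ≤ (3 * T') ^ σ := Nat.pow_le_pow_left (by omega) _
      _ = 3 ^ σ * T' ^ σ := mul_pow _ _ _
      _ ≤ 3 ^ n * T' ^ σ := Nat.mul_le_mul_right _ (Nat.pow_le_pow_right (by norm_num) S.hσ)
  have h6 : J * R ≤ (Cn n * 3 ^ n * D ^ (2 * (n + 1)) * Λ) * R := by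
    calc J * R ≤ Cn n * D ^ (2 * (n + 1)) * (∏ i, γ i) * (3 ^ n * T' ^ σ) :=
          h4.trans (Nat.mul_le_mul_left _ h5)
      _ = Cn n * 3 ^ n * D ^ (2 * (n + 1)) * ((∏ i, γ i) * T' ^ σ) := by ring
      _ ≤ Cn n * 3 ^ n * D ^ (2 * (n + 1)) * (Λ * R) := Nat.mul_le_mul_left _ hle
      _ = _ := by ring
  have hT' : 1 ≤ T' := S.hW.trans hWT
  have hpos : 0 < (∏ i, γ i) * T' ^ σ :=
    Nat.mul_pos (Finset.prod_pos fun i _ => hγ1 i) (pow_pos hT' _)
  have hRpos : 0 < R := by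
    rcases Nat.eq_zero_or_pos R with h0 | h0
    · rw [h0, mul_zero] at hle
      omega
    · exact h0
  have h7 := Nat.le_of_mul_le_mul_right h6 hRpos
  omega

end Vale.Agent.P054.T2.H269
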