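import Vale.Agent.P054.T2.H269.GermSum
import Vale.Agent.P054.T2.H428.SecC

/-!
# P054 / T2, section C, row [C1]: classes of the hat leaf of one point
-/

set_option autoImplicit false
set_option linter.all false

namespace Vale.Agent.P054.T2.H269

open MvPolynomial Finset Module
open Vale.Agent.P054.T2 Vale.Agent.P054.T2.SecC
open Vale.Agent.P054.T2.H686 (mu meet Qf Crd leaf)
open Vale.Agent.P054.T2.H580 (Vw hilbF rkF IsFilt)
open Vale.Agent.P054.T2.H930 (germ mx grad J)

variable {n : ℕ} {A : Finset (ZZ n × ZZ n)} {W D σ v : ℕ} (S : Side n A W D σ v)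

/-- the constant of the weighted upper bound -/
def Cn (n : ℕ) : ℕ := (3 * n + 3) ^ (3 * n + 2)

theorem one_le_Cn (n : ℕ) : 1 ≤ Cn n := Nat.one_le_pow _ _ (by omega)

theorem isFilt_wt (hW : 1 ≤ W) : IsFilt (Vw ℝ (wt (n := n) W)) :=
  H580.isFilt_Vw _ (wt_ne hW)

theorem X_mem_wt (hW : 1 ≤ W) (i : HL n) : (X i : MvPolynomial (HL n) ℝ) ∈ Vw ℝ (wt W) W := by
  refine H580.Vw_mono (wt W) ?_ (H580.X_mem_Vw (wt W) i)
  rcases i with i | i
  · simpa [wt] using hW
  · simp [wt]

/-- polynomials of degree `≤ N` in `u` have level `N` -/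
theorem rename_inl_mem {N : ℕ} {f : MvPolynomial (Fin n) ℝ} (hf : f.totalDegree ≤ N) :
    rename Sum.inl f ∈ Vw ℝ (wt (n := n) W) N := by
  classical
  rw [H580.mem_Vw]
  intro m hm
  rw [support_rename_of_injective Sum.inl_injective, Finset.mem_image] at hm
  obtain ⟨m', hm', rfl⟩ := hm
  have h1 := le_totalDegree hm'
  have h2 : Finsupp.weight (wt (n := n) W) (Finsupp.mapDomain Sum.inl m') =
      m'.sum fun _ e => e := by
    rw [Finsupp.weight_apply, Finsupp.sum_mapDomain_index (by simp) (by intros; simp [add_smul, add_mul])]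
    simp [wt]
  rw [h2]
  exact h1.trans hf

theorem P_eq {s : ZZ n} {e : ZZ n × ZZ n} (he : e.1 = s) :
    S.P e = germ (hx s e.2) (S.F s) := by
  subst he
  rfl

/-- **weighted upper bound** for the intersection of the class primes on one leaf -/
theorem side_up (s : ZZ n) (G : Finset (ZZ n × ZZ n)) (hGA : G ⊆ A) (hGs : ∀ e ∈ G, e.1 = s)
    (m : ℕ) : W ^ v * hilbF (Vw ℝ (wt W)) (⨅ e ∈ G, S.P e) m ≤
      Cn n * D ^ (2 * (n + 1)) * W ^ (n - σ) * (m + W) ^ (σ + v) := by
  classical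
  have hW := S.hW
  have hD := S.hD
  have hσ := S.hσ
  have hv := S.hv
  set c : ℕ := (n - σ) + (2 * (n + 1) - v) with hc
  have hcn : c + (σ + v) = n + 2 * (n + 1) := by omega
  have hV := isFilt_wt (n := n) hW
  have hInf : (⨅ e ∈ G, S.P e) = ⨅ e ∈ G, germ (hx s e.2) (S.F s) := by
    refine iInf_congr fun e => iInf_congr fun he => P_eq S (hGs e he)
  have h1 := hilbF_germs_le hV G (fun e => hx s e.2) (S.F s)
    (fun e he j => by have := S.hzero e (hGA he) j; rwa [hGs e he] at this)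
    (fun e he => by have := S.hind e (hGA he); rwa [hGs e he] at this)
    (Fin.append (fun _ => W) (fun _ => D * W))
    (fun j => by
      refine Fin.addCases (fun i => ?_) (fun i => ?_) j
      · rw [Fin.append_left]; exact hW
      · rw [Fin.append_right]; exact Nat.mul_pos hD hW)
    (fun j => by
      refine Fin.addCases (fun i => ?_) (fun i => ?_) j
      · rw [Fin.append_left, S.hleft]; exact rename_inl_mem (S.hfdeg s i)
      · rw [Fin.append_right]; exact S.hFdeg s i)
    m (m + W - 1)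
  rw [← hInf] at h1
  have hprod : ∏ j, (Fin.append (fun _ => W) (fun _ => D * W) :
      Fin ((n - σ) + (2 * (n + 1) - v)) → ℕ) j = W ^ (n - σ) * (D * W) ^ (2 * (n + 1) - v) := by
    rw [Fin.prod_univ_add]
    simp [Fin.append_left, Fin.append_right]
  rw [hprod] at h1
  have hT : m + W - 1 + 1 = m + W := by omega
  rw [hT] at h1
  set N : ℕ := m + c * (m + W - 1) with hN
  have hKn : c + 1 ≤ 3 * n + 3 := by omega
  -- dimension of the weighted space
  have h2 : finrank ℝ (Vw ℝ (wt (n := n) W) N) ≤ (N + 1) ^ n * (N / W + 1) ^ (2 * (n + 1)) := by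
    refine (H580.finrank_Vw_le _ (wt_ne hW) N).trans (le_of_eq ?_)
    rw [Fintype.prod_sum_type, Fintype.prod_sum_type]
    simp only [wt, Sum.elim_inl, Sum.elim_inr, Nat.div_one, Finset.prod_const, Finset.card_univ,
      Fintype.card_fin]
    ring
  have hN1 : N + 1 ≤ (3 * n + 3) * (m + W) := by
    have : N + 1 ≤ (c + 1) * (m + W) := by
      have h3 : c * (m + W - 1) ≤ c * (m + W) := Nat.mul_le_mul_left _ (by omega)
      have h4 : (c + 1) * (m + W) = c * (m + W) + (m + W) := by ring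
      omega
    exact this.trans (Nat.mul_le_mul_right _ hKn)
  have hN2 : W * (N / W + 1) ≤ (3 * n + 3) * (m + W) := by
    have h3 : W * (N / W) ≤ N := Nat.mul_div_le N W
    have h5 : W * (N / W + 1) ≤ N + W := by
      have : W * (N / W + 1) = W * (N / W) + W := by ring
      omega
    have : N + W ≤ (c + 1) * (m + W) := by
      rcases Nat.eq_zero_or_pos c with h0 | h0
      · have : N = m := by rw [hN, h0]; ring
        rw [this, h0]; omega
      · have h6 : c * (m + W - 1) + c = c * (m + W) := by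
          have : m + W - 1 + 1 = m + W := hT
          calc c * (m + W - 1) + c = c * (m + W - 1 + 1) := by ring
            _ = _ := by rw [this]
        have h4 : (c + 1) * (m + W) = c * (m + W) + (m + W) := by ring
        omega
    exact h5.trans (this.trans (Nat.mul_le_mul_right _ hKn))
  set H : ℕ := hilbF (Vw ℝ (wt W)) (⨅ e ∈ G, S.P e) m with hH
  set X : ℕ := m + W with hX
  have hXpos : 0 < X := by omega
  have h3 : W ^ (2 * (n + 1)) * (X ^ c * H) ≤
      W ^ (n - σ) * (D * W) ^ (2 * (n + 1) - v) * ((3 * n + 3) * X) ^ (n + 2 * (n + 1)) := by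
    calc W ^ (2 * (n + 1)) * (X ^ c * H)
        ≤ W ^ (2 * (n + 1)) * (W ^ (n - σ) * (D * W) ^ (2 * (n + 1) - v) *
          ((N + 1) ^ n * (N / W + 1) ^ (2 * (n + 1)))) :=
          Nat.mul_le_mul_left _ (h1.trans (Nat.mul_le_mul_left _ h2))
      _ = W ^ (n - σ) * (D * W) ^ (2 * (n + 1) - v) *
          ((N + 1) ^ n * (W * (N / W + 1)) ^ (2 * (n + 1))) := by
          rw [mul_pow W (N / W + 1)]; ring
      _ ≤ W ^ (n - σ) * (D * W) ^ (2 * (n + 1) - v) *
          (((3 * n + 3) * X) ^ n * ((3 * n + 3) * X) ^ (2 * (n + 1))) := by gcongr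
      _ = _ := by rw [← pow_add]
  have h4 : (W ^ (2 * (n + 1) - v) * X ^ c) * (W ^ v * H) ≤
      (W ^ (2 * (n + 1) - v) * X ^ c) *
        (Cn n * D ^ (2 * (n + 1)) * W ^ (n - σ) * X ^ (σ + v)) := by
    calc (W ^ (2 * (n + 1) - v) * X ^ c) * (W ^ v * H)
        = W ^ (2 * (n + 1)) * (X ^ c * H) := by
          have : W ^ (2 * (n + 1)) = W ^ (2 * (n + 1) - v) * W ^ v := by
            rw [← pow_add]; congr 1; omega
          rw [this]; ring
      _ ≤ _ := h3
      _ = W ^ (n - σ) * (D ^ (2 * (n + 1) - v) * W ^ (2 * (n + 1) - v)) *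
          ((3 * n + 3) ^ (n + 2 * (n + 1)) * (X ^ c * X ^ (σ + v))) := by
          rw [mul_pow D W, mul_pow (3 * n + 3) X, ← pow_add X, hcn]
      _ ≤ W ^ (n - σ) * (D ^ (2 * (n + 1)) * W ^ (2 * (n + 1) - v)) *
          ((3 * n + 3) ^ (n + 2 * (n + 1)) * (X ^ c * X ^ (σ + v))) := by
          gcongr
          omega
      _ = _ := by
          have : 3 * n + 2 = n + 2 * (n + 1) := by ring
          unfold Cn
          rw [this]; ring
  have hpos : 0 < W ^ (2 * (n + 1) - v) * X ^ c := by positivity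
  exact Nat.le_of_mul_le_mul_left h4 hpos

/-- gradient of a polynomial in the first block -/
theorem grad_rename_inl {α β : Type*} [Fintype α] [Fintype β] [DecidableEq α] [DecidableEq β]
    (u : α → ℝ) (r : β → ℝ) (f : MvPolynomial α ℝ) :
    grad (Sum.elim u r : α ⊕ β → ℝ) (rename Sum.inl f) = Sum.elim (grad u f) (0 : β → ℝ) := by
  funext x
  rcases x with x | x
  · simp only [H930.grad, Sum.elim_inl]
    rw [pderiv_rename Sum.inl_injective, eval_rename]
    rfl
  · simp only [H930.grad, Sum.elim_inr, Pi.zero_apply]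
    have h : pderiv (Sum.inr x : α ⊕ β) (rename Sum.inl f) = 0 := by
      apply pderiv_eq_zero_of_notMem_vars
      intro hx
      have := vars_rename _ _ hx
      simp at this
    rw [h, map_zero]

/-- gradient of a polynomial in the second block -/
theorem grad_rename_inr {α β : Type*} [Fintype α] [Fintype β] [DecidableEq α] [DecidableEq β]
    (u : α → ℝ) (r : β → ℝ) (f : MvPolynomial β ℝ) :
    grad (Sum.elim u r : α ⊕ β → ℝ) (rename Sum.inr f) = Sum.elim (0 : α → ℝ) (grad r f) := by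
  funext x
  rcases x with x | x
  · simp only [H930.grad, Sum.elim_inl, Pi.zero_apply]
    have h : pderiv (Sum.inl x : α ⊕ β) (rename Sum.inr f) = 0 := by
      apply pderiv_eq_zero_of_notMem_vars
      intro hx
      have := vars_rename _ _ hx
      simp at this
    rw [h, map_zero]
  · simp only [H930.grad, Sum.elim_inr]
    rw [pderiv_rename Sum.inr_injective, eval_rename]
    rfl

theorem rename_lform_mem {α β : Type*} [Fintype α] [DecidableEq α] (w : β → ℕ) (g : α → β)
    (N : ℕ) (hw : ∀ i, w (g i) ≤ N) (p a : α → ℝ) : rename g (lform p a) ∈ Vw ℝ w N := by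
  unfold lform
  rw [map_sum]
  refine Submodule.sum_mem _ fun j _ => ?_
  rw [map_mul, rename_C, map_sub, rename_X, rename_C]
  have h1 : (X (g j) - C (p j) : MvPolynomial β ℝ) ∈ Vw ℝ w N :=
    Submodule.sub_mem _ (H580.Vw_mono w (hw j) (H580.X_mem_Vw w (g j))) (H580.C_mem_Vw w _ _)
  have h2 := H580.mul_mem_Vw w (H580.C_mem_Vw w (a j) 0) h1
  rwa [Nat.zero_add] at h2

/-- **lower bound** for one class prime: `σ` directions of level `1`, `v` of level `W` -/
theorem side_low {e : ZZ n × ZZ n} (he : e ∈ A) (a b : ℕ) :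
    (a + 1) ^ σ * (b + 1) ^ v ≤ hilbF (Vw ℝ (wt W)) (S.P e) (σ * a + v * (b * W)) := by
  classical
  have hW := S.hW
  have hσ := S.hσ
  have hv := S.hv
  have hV := isFilt_wt (n := n) hW
  obtain ⟨au, hau⟩ := exists_complete (e := σ) (fun i => grad (mu e.1 e.2) (S.f e.1 i))
    (S.hindf e he) (by simp; omega)
  obtain ⟨ar, har⟩ := exists_complete (e := v) (fun (j : Fin (2 * (n + 1) - v)) (z : ZI n) =>
      eval (hx e.1 e.2) (pderiv (Sum.inr z) (S.F e.1 (Fin.natAdd _ j))))
    (S.hindr e he) (by simp; omega)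
  set x : Fin (σ + v) → MvPolynomial (HL n) ℝ :=
    Fin.append (fun l => rename Sum.inl (lform (mu e.1 e.2) (au l)))
      (fun l => rename Sum.inr (lform (pt e.2) (ar l))) with hx
  have hgl : ∀ l, grad (SecC.hx e.1 e.2) (rename Sum.inl (lform (mu e.1 e.2) (au l))) =
      Sum.elim (au l) (0 : ZI n → ℝ) := by
    intro l
    unfold SecC.hx
    rw [grad_rename_inl]
    congr 1
    exact grad_lform _ _ _
  have hgr : ∀ l, grad (SecC.hx e.1 e.2) (rename Sum.inr (lform (pt e.2) (ar l))) =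
      Sum.elim (0 : Fin n → ℝ) (ar l) := by
    intro l
    unfold SecC.hx
    rw [grad_rename_inr]
    congr 1
    exact grad_lform _ _ _
  have hgf : ∀ i, grad (SecC.hx e.1 e.2) (S.F e.1 (Fin.castAdd _ i)) =
      Sum.elim (grad (mu e.1 e.2) (S.f e.1 i)) (0 : ZI n → ℝ) := by
    intro i
    rw [S.hleft]
    unfold SecC.hx
    rw [grad_rename_inl]
  -- the block triangular family
  have hblock := linInd_block (Sum.elim (fun i => grad (mu e.1 e.2) (S.f e.1 i)) au)
    (Sum.elim (fun (j : Fin (2 * (n + 1) - v)) (z : ZI n) =>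
      eval (SecC.hx e.1 e.2) (pderiv (Sum.inr z) (S.F e.1 (Fin.natAdd _ j)))) ar)
    (Sum.elim (fun (j : Fin (2 * (n + 1) - v)) (z : Fin n) =>
      eval (SecC.hx e.1 e.2) (pderiv (Sum.inl z) (S.F e.1 (Fin.natAdd _ j)))) (fun _ => 0))
    hau har
  let ε : ((Fin (n - σ) ⊕ Fin σ) ⊕ (Fin (2 * (n + 1) - v) ⊕ Fin v)) ≃
      Fin (((n - σ) + (2 * (n + 1) - v)) + (σ + v)) :=
    (Equiv.sumSumSumComm _ _ _ _).trans
      ((Equiv.sumCongr finSumFinEquiv finSumFinEquiv).trans finSumFinEquiv)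
  have hind : LinearIndependent ℝ
      (fun j => grad (SecC.hx e.1 e.2) (Fin.append (S.F e.1) x j)) := by
    rw [← linearIndependent_equiv ε]
    set blk := Sum.elim (fun i => (Sum.elim ((Sum.elim (fun i => grad (mu e.1 e.2) (S.f e.1 i)) au) i)
        (0 : ZI n → ℝ) : HL n → ℝ))
      (fun j => (Sum.elim ((Sum.elim (fun (j : Fin (2 * (n + 1) - v)) (z : Fin n) =>
        eval (SecC.hx e.1 e.2) (pderiv (Sum.inl z) (S.F e.1 (Fin.natAdd _ j)))) (fun _ => 0)) j)
        ((Sum.elim (fun (j : Fin (2 * (n + 1) - v)) (z : ZI n) =>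
          eval (SecC.hx e.1 e.2) (pderiv (Sum.inr z) (S.F e.1 (Fin.natAdd _ j)))) ar) j)
        : HL n → ℝ)) with hblk
    suffices hfun : ((fun j => grad (SecC.hx e.1 e.2) (Fin.append (S.F e.1) x j)) ∘ ε) = blk by
      rw [hfun]; exact hblock
    funext j
    rcases j with (i | l) | (j | l)
    · show grad (SecC.hx e.1 e.2) (Fin.append (S.F e.1) x (ε (Sum.inl (Sum.inl i)))) = _
      have : ε (Sum.inl (Sum.inl i)) = Fin.castAdd _ (Fin.castAdd _ i) := rfl
      rw [this, Fin.append_left, hgf]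
      rfl
    · show grad (SecC.hx e.1 e.2) (Fin.append (S.F e.1) x (ε (Sum.inl (Sum.inr l)))) = _
      have : ε (Sum.inl (Sum.inr l)) = Fin.natAdd _ (Fin.castAdd _ l) := rfl
      rw [this, Fin.append_right, hx, Fin.append_left, hgl]
      rfl
    · show grad (SecC.hx e.1 e.2) (Fin.append (S.F e.1) x (ε (Sum.inr (Sum.inl j)))) = _
      have : ε (Sum.inr (Sum.inl j)) = Fin.castAdd _ (Fin.natAdd _ j) := rfl
      rw [this, Fin.append_left]
      funext z
      rcases z with z | z <;> rfl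
    · show grad (SecC.hx e.1 e.2) (Fin.append (S.F e.1) x (ε (Sum.inr (Sum.inr l)))) = _
      have : ε (Sum.inr (Sum.inr l)) = Fin.natAdd _ (Fin.natAdd _ l) := rfl
      rw [this, Fin.append_right, hx, Fin.append_right, hgr]
      rfl
  have h1 := le_hilbF_germ hV (SecC.hx e.1 e.2) (S.F e.1) x (S.hzero e he)
    (fun l => by
      refine Fin.addCases (fun i => ?_) (fun i => ?_) l
      · rw [hx, Fin.append_left, eval_rename]
        exact eval_lform _ _
      · rw [hx, Fin.append_right, eval_rename]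
        exact eval_lform _ _)
    hind (Fin.append (fun _ => 1) (fun _ => W))
    (fun l => by
      refine Fin.addCases (fun i => ?_) (fun i => ?_) l
      · rw [hx, Fin.append_left, Fin.append_left]
        exact rename_lform_mem _ _ _ (fun i => by simp [wt]) _ _
      · rw [hx, Fin.append_right, Fin.append_right]
        exact rename_lform_mem _ _ _ (fun i => by simp [wt]) _ _)
    (Fin.append (fun _ => a) (fun _ => b))
  have h2 : ∏ l, ((Fin.append (fun _ => a) (fun _ => b) : Fin (σ + v) → ℕ) l + 1) =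
      (a + 1) ^ σ * (b + 1) ^ v := by
    rw [Fin.prod_univ_add]
    simp [Fin.append_left, Fin.append_right]
  have h3 : ∑ l, (Fin.append (fun _ => a) (fun _ => b) : Fin (σ + v) → ℕ) l *
      (Fin.append (fun _ => 1) (fun _ => W) : Fin (σ + v) → ℕ) l = σ * a + v * (b * W) := by
    rw [Fin.sum_univ_add]
    simp [Fin.append_left, Fin.append_right]
  rw [h2, h3] at h1
  exact h1


open Classical in
/-- additivity over the class primes of one leaf -/
theorem side_additive (s : ZZ n) (G : Finset (ZZ n × ZZ n)) (hGA : G ⊆ A)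
    (hGs : ∀ e ∈ G, e.1 = s) :
    ∃ a : ℕ, ∀ m, ∑ Q ∈ G.image S.P, hilbF (Vw ℝ (wt W)) Q m ≤
      hilbF (Vw ℝ (wt W)) (⨅ e ∈ G, S.P e) (m + a) := by
  have hV := isFilt_wt (n := n) S.hW
  have hInf : (⨅ e ∈ G, S.P e) = ⨅ e ∈ G, germ (hx s e.2) (S.F s) := by
    refine iInf_congr fun e => iInf_congr fun he => P_eq S (hGs e he)
  have hIm : G.image S.P = G.image (fun e => germ (hx s e.2) (S.F s)) := by
    refine Finset.image_congr fun e he => ?_
    exact P_eq S (hGs e he)
  obtain ⟨a, ha⟩ := germs_additive hV (X_mem_wt S.hW) G (fun e => hx s e.2) (S.F s)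
    (fun e he j => by have := S.hzero e (hGA he) j; rwa [hGs e he] at this)
    (fun e he => by have := S.hind e (hGA he); rwa [hGs e he] at this)
  refine ⟨a, fun m => ?_⟩
  rw [hInf, hIm]
  exact ha m

/-- the constant of the number of classes -/
def Cc (n : ℕ) : ℕ := Cn n * (3 * n + 2) ^ (3 * n + 2)

open Classical in
/-- **number of classes on one leaf** (any vertical dimension) -/
theorem side_card_classes (s : ZZ n) (G : Finset (ZZ n × ZZ n)) (hGA : G ⊆ A)
    (hGs : ∀ e ∈ G, e.1 = s) :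
    (G.image S.P).card ≤ Cc n * D ^ (2 * (n + 1)) * W ^ (n - σ) := by
  have hW := S.hW
  have hσ := S.hσ
  have hv := S.hv
  have hV := isFilt_wt (n := n) hW
  obtain ⟨a, ha⟩ := side_additive S s G hGA hGs
  set Q := G.image S.P with hQ
  have key : ∀ k : ℕ, (Q.card * W ^ (σ + v)) * (k + 1) ^ (σ + v) ≤
      (Cn n * D ^ (2 * (n + 1)) * W ^ (n - σ)) *
        ((k + 1) * ((σ + v) * W) + (a + W)) ^ (σ + v) := by
    intro k
    have h1 : ∀ q ∈ Q, (W * (k + 1)) ^ σ * (k + 1) ^ v ≤
        hilbF (Vw ℝ (wt W)) q ((k + 1) * ((σ + v) * W)) := by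
      intro q hq
      obtain ⟨e, he, rfl⟩ := Finset.mem_image.1 hq
      have h2 := side_low S (hGA he) (W * (k + 1) - 1) k
      have h3 : 0 < W * (k + 1) := by positivity
      have h4 : W * (k + 1) - 1 + 1 = W * (k + 1) := by omega
      rw [h4] at h2
      refine h2.trans (hV.hilbF_mono _ ?_)
      have h5 : σ * (W * (k + 1) - 1) ≤ σ * (W * (k + 1)) := Nat.mul_le_mul_left _ (by omega)
      have h6 : v * (k * W) ≤ v * (W * (k + 1)) := by
        apply Nat.mul_le_mul_left
        nlinarith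
      calc σ * (W * (k + 1) - 1) + v * (k * W) ≤ σ * (W * (k + 1)) + v * (W * (k + 1)) :=
            Nat.add_le_add h5 h6
        _ = _ := by ring
    have h2 : Q.card * ((W * (k + 1)) ^ σ * (k + 1) ^ v) ≤
        hilbF (Vw ℝ (wt W)) (⨅ e ∈ G, S.P e) ((k + 1) * ((σ + v) * W) + a) := by
      refine le_trans ?_ (ha _)
      rw [← smul_eq_mul, ← Finset.sum_const]
      exact Finset.sum_le_sum h1
    have h3 := side_up S s G hGA hGs ((k + 1) * ((σ + v) * W) + a)
    calc (Q.card * W ^ (σ + v)) * (k + 1) ^ (σ + v)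
        = W ^ v * (Q.card * ((W * (k + 1)) ^ σ * (k + 1) ^ v)) := by
          rw [mul_pow, pow_add, pow_add]; ring
      _ ≤ W ^ v * hilbF (Vw ℝ (wt W)) (⨅ e ∈ G, S.P e) ((k + 1) * ((σ + v) * W) + a) :=
          Nat.mul_le_mul_left _ h2
      _ ≤ _ := h3
      _ = _ := by rw [add_assoc]
  have h1 := lim_pow key
  have h2 : Q.card * W ^ (σ + v) ≤
      (Cn n * D ^ (2 * (n + 1)) * W ^ (n - σ) * (σ + v) ^ (σ + v)) * W ^ (σ + v) := by
    refine h1.trans (le_of_eq ?_)
    rw [mul_pow]; ring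
  have h3 := Nat.le_of_mul_le_mul_right h2 (by positivity)
  refine h3.trans ?_
  have h4 : (σ + v) ^ (σ + v) ≤ (3 * n + 2) ^ (3 * n + 2) := by
    calc (σ + v) ^ (σ + v) ≤ (3 * n + 2) ^ (σ + v) := Nat.pow_le_pow_left (by omega) _
      _ ≤ _ := Nat.pow_le_pow_right (by omega) (by omega)
  unfold Cc
  calc Cn n * D ^ (2 * (n + 1)) * W ^ (n - σ) * (σ + v) ^ (σ + v)
      ≤ Cn n * D ^ (2 * (n + 1)) * W ^ (n - σ) * (3 * n + 2) ^ (3 * n + 2) :=
        Nat.mul_le_mul_left _ h4
    _ = _ := by ring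

/-- the fibres of the class map inside `B` are contained in the classes -/
theorem filter_subset_cls (s : ZZ n) {B : Finset (ZZ n × ZZ n)} (hBA : B ⊆ A)
    (hBs : ∀ e ∈ B, e.1 = s) {e : ZZ n × ZZ n} (he : e ∈ B)
    [DecidablePred fun e' => S.P e' = S.P e] :
    B.filter (fun e' => S.P e' = S.P e) ⊆ S.cls e := by
  intro e' he'
  obtain ⟨h1, h2⟩ := Finset.mem_filter.1 he'
  rw [S.mem_cls]
  exact ⟨hBA h1, by rw [hBs e' h1, hBs e he], h2⟩

/-- **[C1], small classes**: any `v` -/
theorem side_count_small (s : ZZ n) (B : Finset (ZZ n × ZZ n)) (hBA : B ⊆ A)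
    (hBs : ∀ e ∈ B, e.1 = s) {g : ℕ} (hg : ∀ e ∈ B, (S.cls e).card ≤ g) :
    B.card ≤ Cc n * D ^ (2 * (n + 1)) * W ^ (n - σ) * g := by
  classical
  rw [Finset.card_eq_sum_card_image S.P B]
  calc ∑ q ∈ B.image S.P, (B.filter fun e => S.P e = q).card
      ≤ ∑ q ∈ B.image S.P, g := by
        refine Finset.sum_le_sum fun q hq => ?_
        obtain ⟨e, he, rfl⟩ := Finset.mem_image.1 hq
        exact (Finset.card_le_card (filter_subset_cls S s hBA hBs he)).trans (hg e he)
    _ = (B.image S.P).card * g := by rw [Finset.sum_const, smul_eq_mul]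
    _ ≤ _ := Nat.mul_le_mul_right _ (side_card_classes S s B hBA hBs)

/-- **[C1], large classes**: `v = 0`, polynomial growth form -/
theorem side_count_growth (S : Side n A W D σ 0) (s : ZZ n) (B : Finset (ZZ n × ZZ n))
    (hBA : B ⊆ A) (hBs : ∀ e ∈ B, e.1 = s) {M : ℕ}
    (hq : ∀ e ∈ B, ∃ m₀ : ℕ, ∀ m, m₀ ≤ m →
      m ^ σ * (S.cls e).card ≤ M * hilbF (Vw ℝ (wt W)) (S.P e) m) :
    B.card ≤ M * (Cn n * D ^ (2 * (n + 1)) * W ^ (n - σ)) := by
  classical
  obtain ⟨a, ha⟩ := side_additive S s B hBA hBs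
  choose! m₀ hm₀ using hq
  refine lim_pow' (e := σ) (a := a + W) (m₀ := ∑ e ∈ B, m₀ e) fun m hm => ?_
  have h1 : B.card * m ^ σ ≤ M * ∑ q ∈ B.image S.P, hilbF (Vw ℝ (wt W)) q m := by
    rw [Finset.card_eq_sum_card_image S.P B, Finset.sum_mul, Finset.mul_sum]
    refine Finset.sum_le_sum fun q hq => ?_
    obtain ⟨e, he, rfl⟩ := Finset.mem_image.1 hq
    have h2 := hm₀ e he m ((Finset.single_le_sum (f := m₀) (fun _ _ => Nat.zero_le _) he).trans hm)
    calc (B.filter fun e' => S.P e' = S.P e).card * m ^ σ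
        ≤ (S.cls e).card * m ^ σ :=
          Nat.mul_le_mul_right _ (Finset.card_le_card (filter_subset_cls S s hBA hBs he))
      _ = m ^ σ * (S.cls e).card := mul_comm _ _
      _ ≤ _ := h2
  have h2 := side_up S s B hBA hBs (m + a)
  rw [pow_zero, one_mul, Nat.add_zero] at h2
  calc B.card * m ^ σ ≤ M * ∑ q ∈ B.image S.P, hilbF (Vw ℝ (wt W)) q m := h1
    _ ≤ M * hilbF (Vw ℝ (wt W)) (⨅ e ∈ B, S.P e) (m + a) := Nat.mul_le_mul_left _ (ha m)
    _ ≤ M * (Cn n * D ^ (2 * (n + 1)) * W ^ (n - σ) * (m + a + W) ^ σ) :=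
        Nat.mul_le_mul_left _ h2
    _ = _ := by rw [add_assoc]; ring

end Vale.Agent.P054.T2.H269
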